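import Vale.Agent.Lib.P064.EdgeMap

namespace Vale.Agent.P064

open Finset

theorem card_edge (n : ℕ) : Fintype.card (Edge (Fin n)) = n.choose 2 := by
  have h := Sym2.card_subtype_not_diag (α := Fin n)
  rw [Fintype.card_fin] at h
  rw [← h]

theorem edgeF_map_val {V : Type*} [Fintype V] (G : SimpleGraph V) :
    (((edgeF G).map (Function.Embedding.subtype _) : Finset (Sym2 V)) : Set (Sym2 V)) =
      G.edgeSet := by
  ext e
  simp only [coe_map, Function.Embedding.subtype_apply, Set.mem_image, mem_coe, mem_edgeF]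
  constructor
  · rintro ⟨x, hx, rfl⟩
    exact hx
  · intro he
    exact ⟨⟨e, SimpleGraph.not_isDiag_of_mem_edgeSet G he⟩, he, rfl⟩

theorem card_edgeF {V : Type*} [Fintype V] (G : SimpleGraph V) :
    Nat.card G.edgeSet = (edgeF G).card := by
  rw [← edgeF_map_val G, Nat.card_coe_set_eq, Set.ncard_coe_finset, card_map]

theorem edgeF_injective {V : Type*} [Fintype V] :
    Function.Injective (edgeF : SimpleGraph V → Finset (Edge V)) := by
  intro G G' h
  apply SimpleGraph.edgeSet_injective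
  rw [← edgeF_map_val G, ← edgeF_map_val G', h]

theorem edgeF_fromEdgeSet {V : Type*} [Fintype V] (W : Finset (Edge V)) :
    edgeF (SimpleGraph.fromEdgeSet (Subtype.val '' (W : Set (Edge V)))) = W := by
  ext e
  rw [mem_edgeF, SimpleGraph.edgeSet_fromEdgeSet]
  constructor
  · rintro ⟨⟨x, hx, hxe⟩, -⟩
    have : x = e := Subtype.ext hxe
    exact this ▸ hx
  · intro he
    exact ⟨⟨e, he, rfl⟩, e.2⟩

/-- graphs on `Fin n` are sets of possible edges -/
noncomputable def graphEquiv {n : ℕ} : SimpleGraph (Fin n) ≃ Finset (Edge (Fin n)) where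
  toFun G := edgeF G
  invFun W := SimpleGraph.fromEdgeSet (Subtype.val '' (W : Set (Edge (Fin n))))
  left_inv _ := edgeF_injective (edgeF_fromEdgeSet _)
  right_inv W := edgeF_fromEdgeSet W

@[simp] theorem graphEquiv_apply {n : ℕ} (G : SimpleGraph (Fin n)) : graphEquiv G = edgeF G := rfl

theorem gw_eq {n : ℕ} (p : ℝ) (G : SimpleGraph (Fin n)) :
    gw n p G = p ^ (edgeF G).card *
      (1 - p) ^ (Fintype.card (Edge (Fin n)) - (edgeF G).card) := by
  rw [gw, card_edgeF, card_edge]

/-- `G` contains a copy of `H` -/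
theorem isContained_iff {n : ℕ} {V : Type} [Fintype V] (H : SimpleGraph V)
    (G : SimpleGraph (Fin n)) :
    H.IsContained G ↔ ∃ φ : V ↪ Fin n, (edgeF H).map (emap φ) ⊆ edgeF G := by
  constructor
  · rintro ⟨f⟩
    refine ⟨f.toEmbedding, ?_⟩
    intro e he
    obtain ⟨x, hx, rfl⟩ := Finset.mem_map.mp he
    rw [mem_edgeF] at hx ⊢
    exact (f.mapEdgeSet ⟨x.1, hx⟩).2
  · rintro ⟨φ, hφ⟩
    refine ⟨⟨⟨φ, ?_⟩, φ.injective⟩⟩
    intro a b hab
    have hne : ¬ (s(a, b) : Sym2 V).IsDiag := by
      rw [Sym2.mk_isDiag_iff]; exact hab.ne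
    have h1 : (⟨s(a, b), hne⟩ : Edge V) ∈ edgeF H := by
      rw [mem_edgeF]; exact hab
    have h2 := hφ (Finset.mem_map_of_mem (emap φ) h1)
    rw [mem_edgeF] at h2
    exact h2

theorem probCopy_eq {n : ℕ} {V : Type} [Fintype V] [DecidableEq V] (H : SimpleGraph V) (p : ℝ) :
    probCopy n p H = ∑ W ∈ (univ : Finset (Finset (Edge (Fin n)))).filter
      (fun W => ∃ φ : V ↪ Fin n, (edgeF H).map (emap φ) ⊆ W),
        p ^ W.card * (1 - p) ^ (Fintype.card (Edge (Fin n)) - W.card) := by
  classical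
  rw [probCopy, Finset.sum_filter]
  refine Fintype.sum_equiv graphEquiv _ _ fun G => ?_
  rw [graphEquiv_apply, ← gw_eq]
  have h : 0 < G.copyCount H ↔ ∃ φ : V ↪ Fin n, (edgeF H).map (emap φ) ⊆ edgeF G := by
    rw [SimpleGraph.copyCount_pos, isContained_iff]
  simp only [h]

theorem emap_emap {U V W : Type*} (φ : U ↪ V) (ψ : V ↪ W) (x : Edge U) :
    emap ψ (emap φ x) = emap (φ.trans ψ) x := by
  apply Subtype.ext
  change Sym2.map ψ (Sym2.map φ x.1) = Sym2.map (φ.trans ψ) x.1
  rw [Sym2.map_map]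
  rfl

theorem emap_refl {V : Type*} (x : Edge V) : emap (Function.Embedding.refl V) x = x := by
  apply Subtype.ext
  change Sym2.map (Function.Embedding.refl V) x.1 = x.1
  exact congrFun Sym2.map_id x.1

/-- the permutation of the edges induced by a permutation of the vertices -/
def epermE {W : Type*} (π : Equiv.Perm W) : Equiv.Perm (Edge W) where
  toFun := emap π.toEmbedding
  invFun := emap π.symm.toEmbedding
  left_inv x := by
    rw [emap_emap, ← Equiv.trans_toEmbedding, Equiv.self_trans_symm, Equiv.refl_toEmbedding,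
      emap_refl]
  right_inv x := by
    rw [emap_emap, ← Equiv.trans_toEmbedding, Equiv.symm_trans_self, Equiv.refl_toEmbedding,
      emap_refl]

/-- the permutation of the embeddings induced by a permutation of the vertices -/
def epermV {V W : Type*} (π : Equiv.Perm W) : Equiv.Perm (V ↪ W) where
  toFun k := k.trans π.toEmbedding
  invFun k := k.trans π.symm.toEmbedding
  left_inv k := by ext v; simp
  right_inv k := by ext v; simp

theorem emap_trans {n : ℕ} {V : Type} (φ φ' : V ↪ Fin n) :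
    ∃ (σ : Equiv.Perm (Edge (Fin n))) (τ : Equiv.Perm (V ↪ Fin n)), τ φ = φ' ∧
      ∀ (k : V ↪ Fin n) (x : Edge V), emap (τ k) x = σ (emap k x) := by
  classical
  obtain ⟨π, hπ⟩ : ∃ π : Equiv.Perm (Fin n), ∀ v, π (φ v) = φ' v := by
    let e : {x // x ∈ Set.range φ} ≃ {x // x ∈ Set.range φ'} :=
      (Equiv.ofInjective φ φ.injective).symm.trans (Equiv.ofInjective φ' φ'.injective)
    refine ⟨e.extendSubtype, fun v => ?_⟩
    rw [Equiv.extendSubtype_apply_of_mem e (φ v) ⟨v, rfl⟩]
    have h : (Equiv.ofInjective φ φ.injective).symm ⟨φ v, ⟨v, rfl⟩⟩ = v :=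
      Equiv.ofInjective_symm_apply φ.injective v
    change (((Equiv.ofInjective φ' φ'.injective)
      ((Equiv.ofInjective φ φ.injective).symm ⟨φ v, ⟨v, rfl⟩⟩)) : Fin n) = φ' v
    rw [h]
    rfl
  refine ⟨epermE π, epermV π, ?_, ?_⟩
  · ext v
    exact congrArg Fin.val (hπ v)
  · intro k x
    exact (emap_emap k π.toEmbedding x).symm

end Vale.Agent.P064
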