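import Vale.Agent.Lib.P064.EdgeMap

/-!
P064, module GraphB: the expected number of copies of the subgraph spanned by a set of edges.
-/

namespace Vale.Agent.P064

open Finset

theorem card_edgeF_B {V : Type*} [Fintype V] (G : SimpleGraph V) :
    Nat.card G.edgeSet = (edgeF G).card := by
  classical
  have e : G.edgeSet ≃ {e : Edge V // e ∈ edgeF G} :=
    { toFun := fun e => ⟨⟨e.1, G.not_isDiag_of_mem_edgeSet e.2⟩, mem_edgeF.2 e.2⟩
      invFun := fun e => ⟨e.1.1, mem_edgeF.1 e.2⟩
      left_inv := fun _ => rfl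
      right_inv := fun _ => rfl }
  rw [Nat.card_congr e, Nat.card_eq_fintype_card, Fintype.card_coe]

theorem edgeF_bijective_B (V : Type*) [Fintype V] :
    Function.Bijective (fun G : SimpleGraph V => edgeF G) := by
  classical
  constructor
  · intro G G' h
    have key : ∀ G G' : SimpleGraph V, edgeF G = edgeF G' → ∀ a b, G.Adj a b → G'.Adj a b := by
      intro G G' h a b hab
      have h1 : (⟨s(a, b), by simpa using hab.ne⟩ : Edge V) ∈ edgeF G :=
        mem_edgeF.2 (G.mem_edgeSet.2 hab)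
      rw [h] at h1
      exact G'.mem_edgeSet.1 (mem_edgeF.1 h1)
    ext a b
    exact ⟨key G G' h a b, key G' G h.symm a b⟩
  · intro W
    refine ⟨SimpleGraph.fromEdgeSet (Subtype.val '' (W : Set (Edge V))), ?_⟩
    ext e
    change e ∈ edgeF _ ↔ _
    rw [mem_edgeF, SimpleGraph.edgeSet_fromEdgeSet]
    constructor
    · rintro ⟨⟨e', he', h⟩, _⟩
      rw [← Subtype.ext h]
      exact he'
    · intro he
      exact ⟨⟨e, he, rfl⟩, e.2⟩

theorem gw_eq_B (n : ℕ) (q : ℝ) (G : SimpleGraph (Fin n)) :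
    gw n q G = q ^ (edgeF G).card *
      (1 - q) ^ (Fintype.card (Edge (Fin n)) - (edgeF G).card) := by
  classical
  unfold gw
  rw [card_edgeF_B, Sym2.card_subtype_not_diag, Fintype.card_fin]

theorem gw_nonneg_B {n : ℕ} {q : ℝ} (h0 : 0 ≤ q) (h1 : q ≤ 1) (G : SimpleGraph (Fin n)) :
    0 ≤ gw n q G :=
  mul_nonneg (pow_nonneg h0 _) (pow_nonneg (by linarith) _)

/-- The sum of the binomial weights of the sets containing `O`. -/
theorem sum_superset_B {E : Type*} [Fintype E] [DecidableEq E] (q : ℝ) (O : Finset E) :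
    ∑ W ∈ (univ : Finset (Finset E)).filter (fun W => O ⊆ W),
      q ^ W.card * (1 - q) ^ (Fintype.card E - W.card) = q ^ O.card := by
  have h1 : ∑ W ∈ (univ : Finset (Finset E)).filter (fun W => O ⊆ W),
      q ^ W.card * (1 - q) ^ (Fintype.card E - W.card) =
      ∑ W ∈ Oᶜ.powerset, q ^ O.card * (q ^ W.card * (1 - q) ^ (Oᶜ.card - W.card)) := by
    refine Finset.sum_nbij' (fun W => W \ O) (fun W => O ∪ W) ?_ ?_ ?_ ?_ ?_
    · intro W _
      rw [mem_powerset]
      intro x hx
      exact mem_compl.2 (mem_sdiff.1 hx).2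
    · intro W _
      simp
    · intro W hW
      exact Finset.union_sdiff_of_subset (mem_filter.1 hW).2
    · intro W hW
      rw [mem_powerset] at hW
      have hd : Disjoint W O := by
        rw [Finset.disjoint_left]
        intro x hx
        exact mem_compl.1 (hW hx)
      rw [Finset.union_sdiff_left, Finset.sdiff_eq_self_of_disjoint hd]
    · intro W hW
      have hsub := (mem_filter.1 hW).2
      have hc : (W \ O).card + O.card = W.card := Finset.card_sdiff_add_card_eq_card hsub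
      rw [card_compl, ← mul_assoc, ← pow_add, add_comm O.card, hc]
      congr 2
      omega
  rw [h1, ← Finset.mul_sum, Finset.sum_pow_mul_eq_add_pow]
  rw [add_sub_cancel, one_pow, mul_one]

open Classical in
/-- The probability that `G(n,q)` contains all the edges in `O`. -/
theorem sum_gw_superset_B {n : ℕ} (q : ℝ) (O : Finset (Edge (Fin n))) :
    ∑ G : SimpleGraph (Fin n), (if O ⊆ edgeF G then gw n q G else 0) = q ^ O.card := by
  rw [← sum_superset_B q O, Finset.sum_filter]
  refine Fintype.sum_bijective (fun G : SimpleGraph (Fin n) => edgeF G)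
    (edgeF_bijective_B (Fin n)) _ _ fun G => ?_
  rw [gw_eq_B]

/-- Extending an injection. -/
theorem exists_extend_B {V : Type} [Fintype V] {n : ℕ} (hn : Fintype.card V ≤ n) (S : Set V)
    (f : S → Fin n) (hf : Function.Injective f) : ∃ φ : V ↪ Fin n, ∀ v : S, φ v = f v := by
  classical
  have hcard : Fintype.card (Sᶜ : Set V) ≤ Fintype.card ((Set.range f)ᶜ : Set (Fin n)) := by
    rw [Fintype.card_compl_set, Fintype.card_compl_set, Set.card_range_of_injective hf,
      Fintype.card_fin]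
    exact Nat.sub_le_sub_right hn _
  obtain ⟨g⟩ := Function.Embedding.nonempty_of_card_le hcard
  let φ : V → Fin n := fun v => if h : v ∈ S then f ⟨v, h⟩ else (g ⟨v, h⟩ : Fin n)
  have hφ1 : ∀ (v : V) (h : v ∈ S), φ v = f ⟨v, h⟩ := fun v h => dif_pos h
  have hφ2 : ∀ (v : V) (h : v ∉ S), φ v = (g ⟨v, h⟩ : Fin n) := fun v h => dif_neg h
  refine ⟨⟨φ, ?_⟩, fun v => hφ1 v v.2⟩
  intro a b hab
  by_cases ha : a ∈ S
  · by_cases hb : b ∈ S
    · rw [hφ1 a ha, hφ1 b hb] at hab
      exact congrArg Subtype.val (hf hab)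
    · rw [hφ1 a ha, hφ2 b hb] at hab
      exact absurd ⟨_, hab⟩ (g ⟨b, hb⟩).2
  · by_cases hb : b ∈ S
    · rw [hφ2 a ha, hφ1 b hb] at hab
      exact absurd ⟨_, hab.symm⟩ (g ⟨a, ha⟩).2
    · rw [hφ2 a ha, hφ2 b hb] at hab
      exact congrArg Subtype.val (g.injective (Subtype.ext hab))

/-- The subgraph with edges `T` and without isolated vertices. -/
def spanned {V : Type} [Fintype V] (H : SimpleGraph V) (T : Finset (Edge V)) (hT : T ⊆ edgeF H) :
    H.Subgraph where
  verts := {v | ∃ e ∈ T, v ∈ e.1}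
  Adj a b := ∃ e ∈ T, e.1 = s(a, b)
  adj_sub := by
    rintro a b ⟨e, he, h⟩
    have h1 := mem_edgeF.1 (hT he)
    rw [h] at h1
    exact H.mem_edgeSet.1 h1
  edge_vert := by
    rintro a b ⟨e, he, h⟩
    refine ⟨e, he, ?_⟩
    rw [h]
    exact Sym2.mem_mk_left a b
  symm := ⟨fun a b ⟨e, he, h⟩ => ⟨e, he, h.trans Sym2.eq_swap⟩⟩

/-- The image of `T` under an injection extending an isomorphism is the set of edges. -/
theorem map_eq_edges {n : ℕ} {V : Type} [Fintype V] (H : SimpleGraph V) (T : Finset (Edge V))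
    (hT : T ⊆ edgeF H) (G : SimpleGraph (Fin n)) (G' : G.Subgraph)
    (i : (spanned H T hT).coe ≃g G'.coe) (φ : V ↪ Fin n)
    (hφ : ∀ v : (spanned H T hT).verts, φ v = ((i v : G'.verts) : Fin n)) (e : Edge (Fin n)) :
    e ∈ T.map (emap φ) ↔ e.1 ∈ G'.edgeSet := by
  rw [mem_map]
  constructor
  · rintro ⟨t, ht, rfl⟩
    obtain ⟨t, ht'⟩ := t
    change Sym2.map φ t ∈ G'.edgeSet
    induction t using Sym2.ind with
    | _ a b =>
      have hadj : (spanned H T hT).Adj a b := ⟨_, ht, rfl⟩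
      have ha : a ∈ (spanned H T hT).verts := hadj.fst_mem
      have hb : b ∈ (spanned H T hT).verts := hadj.snd_mem
      have h1 : (spanned H T hT).coe.Adj ⟨a, ha⟩ ⟨b, hb⟩ := hadj
      have h2 : G'.coe.Adj (i ⟨a, ha⟩) (i ⟨b, hb⟩) := i.map_adj_iff.2 h1
      rw [Sym2.map_mk, SimpleGraph.Subgraph.mem_edgeSet]
      have e1 := hφ ⟨a, ha⟩
      have e2 := hφ ⟨b, hb⟩
      simp only at e1 e2
      rw [e1, e2]
      exact h2
  · intro he
    obtain ⟨e, he'⟩ := e
    induction e using Sym2.ind with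
    | _ x y =>
      simp only [SimpleGraph.Subgraph.mem_edgeSet] at he
      have hx : x ∈ G'.verts := he.fst_mem
      have hy : y ∈ G'.verts := he.snd_mem
      have h1 : G'.coe.Adj ⟨x, hx⟩ ⟨y, hy⟩ := he
      have h2 : (spanned H T hT).coe.Adj (i.symm ⟨x, hx⟩) (i.symm ⟨y, hy⟩) :=
        i.symm.map_adj_iff.2 h1
      obtain ⟨t, ht, hst⟩ : (spanned H T hT).Adj (i.symm ⟨x, hx⟩) (i.symm ⟨y, hy⟩) := h2
      refine ⟨t, ht, Subtype.ext ?_⟩
      change Sym2.map φ t.1 = s(x, y)
      rw [hst, Sym2.map_mk, hφ, hφ, RelIso.apply_symm_apply, RelIso.apply_symm_apply]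

/-- Subgraphs isomorphic to the spanned subgraph have no isolated vertices. -/
theorem exists_adj_of_iso {n : ℕ} {V : Type} [Fintype V] (H : SimpleGraph V)
    (T : Finset (Edge V)) (hT : T ⊆ edgeF H) (G : SimpleGraph (Fin n)) (G' : G.Subgraph)
    (i : (spanned H T hT).coe ≃g G'.coe) {x : Fin n} (hx : x ∈ G'.verts) :
    ∃ y, G'.Adj x y := by
  obtain ⟨t, ht, hat⟩ : ∃ e ∈ T, ((i.symm ⟨x, hx⟩ : (spanned H T hT).verts) : V) ∈ e.1 :=
    (i.symm ⟨x, hx⟩).2
  obtain ⟨b, hb⟩ := hat
  have hadj : (spanned H T hT).Adj (i.symm ⟨x, hx⟩) b := ⟨t, ht, hb⟩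
  have hbv : b ∈ (spanned H T hT).verts := hadj.snd_mem
  have h1 : (spanned H T hT).coe.Adj (i.symm ⟨x, hx⟩) ⟨b, hbv⟩ := hadj
  have h2 := i.map_adj_iff.2 h1
  rw [RelIso.apply_symm_apply] at h2
  exact ⟨_, h2⟩

theorem exists_subgraph_expCopy_le {n : ℕ} {V : Type} [Fintype V] [DecidableEq V]
    (hn : Fintype.card V ≤ n) (H : SimpleGraph V) (T : Finset (Edge V)) (hT : T ⊆ edgeF H) :
    ∃ F : H.Subgraph, ∀ q : ℝ, 0 ≤ q → q ≤ 1 → expCopy n q F.coe ≤
      (((univ : Finset (V ↪ Fin n)).image fun φ => T.map (emap φ)).card : ℝ) * q ^ T.card := by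
  classical
  refine ⟨spanned H T hT, fun q h0 h1 => ?_⟩
  set F := spanned H T hT with hF
  set Os := (univ : Finset (V ↪ Fin n)).image fun φ => T.map (emap φ) with hOs
  have hcount : ∀ G : SimpleGraph (Fin n),
      G.copyCount F.coe ≤ (Os.filter (fun O => O ⊆ edgeF G)).card := by
    intro G
    unfold SimpleGraph.copyCount
    refine Finset.card_le_card_of_injOn
      (fun G' => (univ : Finset (Edge (Fin n))).filter (fun e => e.1 ∈ G'.edgeSet)) ?_ ?_
    · intro G' hG'
      have hG'2 : Nonempty (F.coe ≃g G'.coe) := by simpa using hG'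
      obtain ⟨i⟩ := hG'2
      obtain ⟨φ, hφ⟩ := exists_extend_B hn F.verts (fun v => ((i v : G'.verts) : Fin n))
        (Subtype.val_injective.comp i.injective)
      have hTφ : T.map (emap φ) =
          (univ : Finset (Edge (Fin n))).filter (fun e => e.1 ∈ G'.edgeSet) := by
        ext e
        rw [map_eq_edges H T hT G G' i φ hφ e]
        simp
      rw [mem_coe, mem_filter]
      constructor
      · rw [hOs, mem_image]
        exact ⟨φ, mem_univ _, hTφ⟩
      · intro e he
        exact mem_edgeF.2 (G'.edgeSet_subset (mem_filter.1 he).2)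
    · intro G₁ hG₁ G₂ hG₂ h12
      obtain ⟨i₁⟩ : Nonempty (F.coe ≃g G₁.coe) := by simpa using hG₁
      obtain ⟨i₂⟩ : Nonempty (F.coe ≃g G₂.coe) := by simpa using hG₂
      have key : ∀ G₁ G₂ : G.Subgraph,
          (univ : Finset (Edge (Fin n))).filter (fun e => e.1 ∈ G₁.edgeSet) =
          (univ : Finset (Edge (Fin n))).filter (fun e => e.1 ∈ G₂.edgeSet) →
          ∀ x y, G₁.Adj x y → G₂.Adj x y := by
        intro G₁ G₂ h x y hxy
        have h1 : (⟨s(x, y), by simpa using hxy.adj_sub.ne⟩ : Edge (Fin n)) ∈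
            (univ : Finset (Edge (Fin n))).filter (fun e => e.1 ∈ G₁.edgeSet) := by
          rw [mem_filter]
          exact ⟨mem_univ _, SimpleGraph.Subgraph.mem_edgeSet.2 hxy⟩
        rw [h, mem_filter] at h1
        exact SimpleGraph.Subgraph.mem_edgeSet.1 h1.2
      have hadj : ∀ x y, G₁.Adj x y ↔ G₂.Adj x y := fun x y =>
        ⟨key G₁ G₂ h12 x y, key G₂ G₁ h12.symm x y⟩
      refine SimpleGraph.Subgraph.ext ?_ ?_
      · ext x
        constructor
        · intro hx
          obtain ⟨y, hy⟩ := exists_adj_of_iso H T hT G G₁ i₁ hx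
          exact ((hadj x y).1 hy).fst_mem
        · intro hx
          obtain ⟨y, hy⟩ := exists_adj_of_iso H T hT G G₂ i₂ hx
          exact ((hadj x y).2 hy).fst_mem
      · ext x y
        exact hadj x y
  have hcardO : ∀ O ∈ Os, O.card = T.card := by
    intro O hO
    rw [hOs, mem_image] at hO
    obtain ⟨φ, _, rfl⟩ := hO
    exact card_map _
  unfold expCopy
  calc ∑ G : SimpleGraph (Fin n), gw n q G * (G.copyCount F.coe : ℝ)
      ≤ ∑ G : SimpleGraph (Fin n), ∑ O ∈ Os, (if O ⊆ edgeF G then gw n q G else 0) := by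
        refine Finset.sum_le_sum fun G _ => ?_
        rw [← Finset.sum_filter, Finset.sum_const, nsmul_eq_mul, mul_comm]
        exact mul_le_mul_of_nonneg_right (by exact_mod_cast hcount G) (gw_nonneg_B h0 h1 G)
    _ = ∑ O ∈ Os, ∑ G : SimpleGraph (Fin n), (if O ⊆ edgeF G then gw n q G else 0) :=
        Finset.sum_comm
    _ = ∑ O ∈ Os, q ^ T.card := by
        refine Finset.sum_congr rfl fun O hO => ?_
        rw [← hcardO O hO, ← sum_gw_superset_B q O]
    _ = (Os.card : ℝ) * q ^ T.card := by rw [Finset.sum_const, nsmul_eq_mul]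

end Vale.Agent.P064
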