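import Vale.Agent.Lib.P064.GraphDefs

/-!
# P064: the two thresholds are attained and positive
-/

namespace Vale.Agent.P064

open SimpleGraph

theorem continuous_gw (n : ℕ) (G : SimpleGraph (Fin n)) : Continuous (fun p : ℝ => gw n p G) := by
  unfold gw
  fun_prop

theorem gw_nonneg' {n : ℕ} {p : ℝ} (h0 : 0 ≤ p) (h1 : p ≤ 1) (G : SimpleGraph (Fin n)) :
    0 ≤ gw n p G := by
  unfold gw
  have : 0 ≤ 1 - p := by linarith
  positivity

theorem continuous_probCopy (n : ℕ) {V : Type} (H : SimpleGraph V) :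
    Continuous (fun p : ℝ => probCopy n p H) := by
  unfold probCopy
  refine continuous_finsetSum _ fun G _ => ?_
  by_cases h : 0 < G.copyCount H
  · simp only [if_pos h]
    exact continuous_gw n G
  · simp only [if_neg h]
    exact continuous_const

theorem continuous_expCopy (n : ℕ) {V : Type} (F : SimpleGraph V) :
    Continuous (fun p : ℝ => expCopy n p F) := by
  unfold expCopy
  refine continuous_finsetSum _ fun G _ => ?_
  exact (continuous_gw n G).mul continuous_const

theorem natCard_edgeSet_top (n : ℕ) :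
    Nat.card (⊤ : SimpleGraph (Fin n)).edgeSet = n.choose 2 := by
  classical
  rw [Nat.card_eq_fintype_card, ← edgeFinset_card, card_edgeFinset_top_eq_card_choose_two,
    Fintype.card_fin]

theorem gw_one_top (n : ℕ) : gw n 1 ⊤ = 1 := by
  unfold gw
  rw [natCard_edgeSet_top]
  simp

theorem copyCount_top_pos {n : ℕ} {V : Type} [Finite V] (H : SimpleGraph V)
    (hV : Nat.card V ≤ n) : 0 < (⊤ : SimpleGraph (Fin n)).copyCount H := by
  rw [copyCount_pos, isContained_top_iff]
  have := Fintype.ofFinite V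
  rw [Nat.card_eq_fintype_card] at hV
  exact Function.Embedding.nonempty_of_card_le (by simpa using hV)

theorem isClosed_pcSet (n : ℕ) {V : Type} (H : SimpleGraph V) : IsClosed (pcSet n H) := by
  have h : pcSet n H = Set.Icc 0 1 ∩ {p | 1 / 2 ≤ probCopy n p H} := by
    ext p
    simp only [pcSet, Set.mem_ofPred_eq, Set.mem_inter_iff, Set.mem_Icc, and_assoc]
  rw [h]
  exact isClosed_Icc.inter (isClosed_le continuous_const (continuous_probCopy n H))

theorem isClosed_pESet (n : ℕ) {V : Type} (H : SimpleGraph V) : IsClosed (pESet n H) := by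
  have h : pESet n H = Set.Icc 0 1 ∩ ⋂ F : H.Subgraph, {p | 1 / 2 ≤ expCopy n p F.coe} := by
    ext p
    simp only [pESet, Set.mem_ofPred_eq, Set.mem_inter_iff, Set.mem_Icc, and_assoc,
      Set.mem_iInter]
  rw [h]
  exact isClosed_Icc.inter (isClosed_iInter fun F =>
    isClosed_le continuous_const (continuous_expCopy n F.coe))

theorem one_mem_pcSet {n : ℕ} {V : Type} [Finite V] (H : SimpleGraph V)
    (hV : Nat.card V ≤ n) : (1 : ℝ) ∈ pcSet n H := by
  refine ⟨zero_le_one, le_refl _, ?_⟩
  have h1 : gw n 1 ⊤ ≤ probCopy n 1 H := by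
    unfold probCopy
    have h2 := Finset.single_le_sum (f := fun G : SimpleGraph (Fin n) =>
      if 0 < G.copyCount H then gw n 1 G else 0) (s := Finset.univ) (fun G _ => ?_)
      (Finset.mem_univ (⊤ : SimpleGraph (Fin n)))
    · simp only [if_pos (copyCount_top_pos H hV)] at h2
      exact h2
    · split
      · exact gw_nonneg' zero_le_one (le_refl _) G
      · exact le_refl _
  rw [gw_one_top] at h1
  linarith

theorem one_mem_pESet {n : ℕ} {V : Type} [Finite V] (H : SimpleGraph V)
    (hV : Nat.card V ≤ n) : (1 : ℝ) ∈ pESet n H := by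
  refine ⟨zero_le_one, le_refl _, fun F => ?_⟩
  have hF : Nat.card F.verts ≤ n :=
    (Nat.card_le_card_of_injective (Subtype.val : F.verts → V) Subtype.val_injective).trans hV
  have hpos := copyCount_top_pos F.coe hF
  have h1 : gw n 1 ⊤ * ((⊤ : SimpleGraph (Fin n)).copyCount F.coe : ℝ) ≤ expCopy n 1 F.coe := by
    unfold expCopy
    refine Finset.single_le_sum (f := fun G : SimpleGraph (Fin n) =>
      gw n 1 G * (G.copyCount F.coe : ℝ)) (fun G _ => ?_)
      (Finset.mem_univ (⊤ : SimpleGraph (Fin n)))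
    exact mul_nonneg (gw_nonneg' zero_le_one (le_refl _) G) (Nat.cast_nonneg _)
  rw [gw_one_top, one_mul] at h1
  have h2 : (1 : ℝ) ≤ ((⊤ : SimpleGraph (Fin n)).copyCount F.coe : ℝ) := by exact_mod_cast hpos
  linarith

theorem isLeast_pc {n : ℕ} {V : Type} [Fintype V] (H : SimpleGraph V)
    (hV : Fintype.card V ≤ n) : IsLeast (pcSet n H) (pc n H) := by
  have hV' : Nat.card V ≤ n := by rwa [Nat.card_eq_fintype_card]
  exact (isClosed_pcSet n H).isLeast_csInf ⟨1, one_mem_pcSet H hV'⟩ ⟨0, fun p hp => hp.1⟩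

theorem isLeast_pE {n : ℕ} {V : Type} [Fintype V] (H : SimpleGraph V)
    (hV : Fintype.card V ≤ n) : IsLeast (pESet n H) (pE n H) := by
  have hV' : Nat.card V ≤ n := by rwa [Nat.card_eq_fintype_card]
  exact (isClosed_pESet n H).isLeast_csInf ⟨1, one_mem_pESet H hV'⟩ ⟨0, fun p hp => hp.1⟩

theorem gw_zero {n : ℕ} {G : SimpleGraph (Fin n)} (hG : G ≠ ⊥) : gw n 0 G = 0 := by
  unfold gw
  have h : Nat.card G.edgeSet ≠ 0 := by
    intro h0
    rw [Nat.card_eq_zero] at h0
    rcases h0 with h0 | h0
    · refine hG ?_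
      rw [← edgeSet_eq_empty]
      exact Set.isEmpty_coe_sort.mp h0
    · exact h0.not_finite (Set.toFinite _)
  rw [zero_pow h, zero_mul]

theorem pE_pos {n : ℕ} {V : Type} [Fintype V] (H : SimpleGraph V) (hV : Fintype.card V ≤ n)
    (hH : H.edgeSet.Nonempty) : 0 < pE n H := by
  have h1 := (isLeast_pE H hV).1
  refine lt_of_le_of_ne h1.1 fun h0 => ?_
  have h2 := h1.2.2 ⊤
  rw [← h0] at h2
  have h3 : expCopy n 0 (⊤ : H.Subgraph).coe = 0 := by
    unfold expCopy
    refine Finset.sum_eq_zero fun G _ => ?_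
    by_cases hG : G = ⊥
    · subst hG
      have h4 : (⊥ : SimpleGraph (Fin n)).copyCount (⊤ : H.Subgraph).coe = 0 := by
        rw [copyCount_eq_zero]
        refine free_bot ?_
        intro hb
        obtain ⟨e, he⟩ := hH
        induction e with
        | _ a b =>
          have hab : H.Adj a b := he
          have h5 : (⊤ : H.Subgraph).coe.Adj ⟨a, by simp⟩ ⟨b, by simp⟩ := hab
          rw [hb] at h5
          exact h5
      rw [h4]; simp
    · rw [gw_zero hG, zero_mul]
  rw [h3] at h2
  norm_num at h2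

end Vale.Agent.P064
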