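import Mathlib

namespace Vale.Agent.P064

open Finset

section

variable {α β ι : Type*} [Fintype α] [DecidableEq α] [Fintype β] [DecidableEq β] [Fintype ι]

omit [Fintype α] [DecidableEq α] [Fintype β] [DecidableEq β] [Fintype ι] in
theorem homog_map_perm (e : ι → β ↪ α) (σ : Equiv.Perm α) (τ : Equiv.Perm ι)
    (h : ∀ k x, e (τ k) x = σ (e k x)) (T' : Finset β) (k : ι) :
    T'.map (e (τ k)) = (T'.map (e k)).map σ.toEmbedding := by
  ext a
  simp only [Finset.mem_map, h]
  constructor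
  · rintro ⟨x, hx, rfl⟩
    exact ⟨e k x, ⟨x, hx, rfl⟩, rfl⟩
  · rintro ⟨b, ⟨x, hx, rfl⟩, rfl⟩
    exact ⟨x, hx, rfl⟩

omit [Fintype α] [Fintype β] [DecidableEq β] in
theorem homog_fibre_le (e : ι → β ↪ α)
    (htrans : ∀ h h' : ι, ∃ (σ : Equiv.Perm α) (τ : Equiv.Perm ι),
      τ h = h' ∧ ∀ k x, e (τ k) x = σ (e k x)) (T' : Finset β) (h h' : ι) :
    ((univ : Finset ι).filter fun k => T'.map (e k) = T'.map (e h)).card
      ≤ ((univ : Finset ι).filter fun k => T'.map (e k) = T'.map (e h')).card := by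
  obtain ⟨σ, τ, h1, h2⟩ := htrans h h'
  refine Finset.card_le_card_of_injOn τ (fun k hk => ?_) (fun a _ b _ hab => τ.injective hab)
  have hk' : T'.map (e k) = T'.map (e h) := (Finset.mem_filter.1 hk).2
  refine Finset.mem_coe.2 (Finset.mem_filter.2 ⟨Finset.mem_univ _, ?_⟩)
  rw [homog_map_perm e σ τ h2, hk', ← homog_map_perm e σ τ h2, h1]

omit [Fintype α] [Fintype β] [DecidableEq β] in
theorem homog_fibre_mul (e : ι → β ↪ α)
    (htrans : ∀ h h' : ι, ∃ (σ : Equiv.Perm α) (τ : Equiv.Perm ι),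
      τ h = h' ∧ ∀ k x, e (τ k) x = σ (e k x)) (T' : Finset β) (h : ι) :
    ((univ : Finset ι).filter fun k => T'.map (e k) = T'.map (e h)).card
      * ((univ : Finset ι).image fun k => T'.map (e k)).card = Fintype.card ι := by
  have h1 := Finset.card_eq_sum_card_image (fun k => T'.map (e k)) (univ : Finset ι)
  rw [Finset.card_univ] at h1
  rw [h1, Finset.sum_congr rfl (g := fun _ =>
    ((univ : Finset ι).filter fun k => T'.map (e k) = T'.map (e h)).card), Finset.sum_const,
    smul_eq_mul, mul_comm]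
  intro T hT
  obtain ⟨h', _, rfl⟩ := Finset.mem_image.1 hT
  exact le_antisymm (homog_fibre_le e htrans T' h' h) (homog_fibre_le e htrans T' h h')

variable [Nonempty ι]

theorem homog_anti (e : ι → β ↪ α)
    (htrans : ∀ h h' : ι, ∃ (σ : Equiv.Perm α) (τ : Equiv.Perm ι),
      τ h = h' ∧ ∀ k x, e (τ k) x = σ (e k x)) (H0 : Finset β) (q : ℝ) (hq : 0 < q)
    (horb : ∀ T' ⊆ H0, T'.Nonempty →
      1 / 2 ≤ (((univ : Finset ι).image fun h => T'.map (e h)).card : ℝ) * q ^ T'.card) :
    ∀ T' ⊆ H0, T'.Nonempty → ∀ T : Finset α,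
      (((univ : Finset ι).filter fun h => T'.map (e h) = T).card : ℝ)
        ≤ 2 * q ^ T'.card * Fintype.card ι := by
  intro T' hT' hne T
  by_cases hf : ∃ h, T'.map (e h) = T
  · obtain ⟨h, rfl⟩ := hf
    have h1 := homog_fibre_mul e htrans T' h
    have h2 := horb T' hT' hne
    have h3 : ((((univ : Finset ι).filter fun k => T'.map (e k) = T'.map (e h)).card : ℕ) : ℝ)
      * ((((univ : Finset ι).image fun k => T'.map (e k)).card : ℕ) : ℝ)
        = (Fintype.card ι : ℝ) := by exact_mod_cast h1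
    have h4 := mul_le_mul_of_nonneg_left h2 (Nat.cast_nonneg
      (α := ℝ) ((univ : Finset ι).filter fun k => T'.map (e k) = T'.map (e h)).card)
    rw [← mul_assoc, h3] at h4
    linarith
  · have h1 : ((univ : Finset ι).filter fun h => T'.map (e h) = T) = ∅ := by
      rw [Finset.filter_eq_empty_iff]
      intro h _ hh
      exact hf ⟨h, hh⟩
    rw [h1]
    simp only [Finset.card_empty, Nat.cast_zero]
    positivity

theorem homog_spread (e : ι → β ↪ α)
    (htrans : ∀ h h' : ι, ∃ (σ : Equiv.Perm α) (τ : Equiv.Perm ι),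
      τ h = h' ∧ ∀ k x, e (τ k) x = σ (e k x)) (H0 : Finset β) (q C : ℝ) (hq : 0 < q)
    (hC : 0 < C)
    (hms : ∀ s : ℕ, 1 ≤ s → ∀ S0 : Finset (Finset β), (∀ S ∈ S0, S ⊆ H0 ∧ S.card = s) →
      (S0.card : ℝ) ≤ 4 * (C * q) ^ s
        * (((univ : Finset ι) ×ˢ S0).image fun z => z.2.map (e z.1)).card) :
    ∀ S : Finset α, S.Nonempty →
      (((univ : Finset ι).filter fun h => S ⊆ H0.map (e h)).card : ℝ)
        ≤ (4 * C * q) ^ S.card * Fintype.card ι := by
  classical
  intro S hS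
  have hs : 1 ≤ S.card := Finset.card_pos.2 hS
  set S0 : Finset (Finset β) := H0.powerset.filter (fun S' => ∃ h, S'.map (e h) = S) with hS0
  have hS0' : ∀ S' ∈ S0, S' ⊆ H0 ∧ S'.card = S.card := by
    intro S' hS'
    obtain ⟨h1, h, h2⟩ := Finset.mem_filter.1 hS'
    refine ⟨Finset.mem_powerset.1 h1, ?_⟩
    rw [← h2, Finset.card_map]
  have hm := hms S.card hs S0 hS0'
  set Im := (((univ : Finset ι) ×ˢ S0).image fun z => z.2.map (e z.1)) with hIm
  have horb : ∀ S1 ∈ S0, ((univ : Finset ι).image fun k => S1.map (e k)) = Im := by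
    intro S1 hS1
    obtain ⟨_, h2, hh2⟩ := Finset.mem_filter.1 hS1
    ext T
    rw [hIm, Finset.mem_image, Finset.mem_image]
    constructor
    · rintro ⟨k, _, rfl⟩
      exact ⟨(k, S1), Finset.mem_product.2 ⟨Finset.mem_univ _, hS1⟩, rfl⟩
    · rintro ⟨⟨h, S'⟩, hz, rfl⟩
      have hS' : S' ∈ S0 := (Finset.mem_product.1 hz).2
      obtain ⟨_, h1, hh1⟩ := Finset.mem_filter.1 hS'
      obtain ⟨σ, τ, ht, hst⟩ := htrans h1 h
      refine ⟨τ h2, Finset.mem_univ _, ?_⟩
      simp only
      rw [homog_map_perm e σ τ hst, hh2, ← hh1, ← homog_map_perm e σ τ hst, ht]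
  have hsub : ((univ : Finset ι).filter fun h => S ⊆ H0.map (e h))
      ⊆ S0.biUnion fun S' => (univ : Finset ι).filter fun h => S'.map (e h) = S := by
    intro h hh
    have hh' : S ⊆ H0.map (e h) := (Finset.mem_filter.1 hh).2
    obtain ⟨S', hS'1, hS'2⟩ := Finset.subset_map_iff.1 hh'
    rw [Finset.mem_biUnion]
    refine ⟨S', ?_, Finset.mem_filter.2 ⟨Finset.mem_univ _, hS'2.symm⟩⟩
    exact Finset.mem_filter.2 ⟨Finset.mem_powerset.2 hS'1, h, hS'2.symm⟩
  have hcard : (((univ : Finset ι).filter fun h => S ⊆ H0.map (e h)).card : ℝ)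
      ≤ ∑ S' ∈ S0, (((univ : Finset ι).filter fun h => S'.map (e h) = S).card : ℝ) := by
    have h1 := (Finset.card_le_card hsub).trans Finset.card_biUnion_le
    exact_mod_cast h1
  have hfib : ∀ S' ∈ S0, (((univ : Finset ι).filter fun h => S'.map (e h) = S).card : ℝ)
      * (Im.card : ℝ) = Fintype.card ι := by
    intro S' hS'
    obtain ⟨_, h, hh⟩ := Finset.mem_filter.1 hS'
    have h1 := homog_fibre_mul e htrans S' h
    rw [horb S' hS', hh] at h1
    exact_mod_cast h1
  rcases S0.eq_empty_or_nonempty with h0 | h0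
  · rw [h0, Finset.sum_empty] at hcard
    refine hcard.trans ?_
    positivity
  · obtain ⟨S1, hS1⟩ := h0
    have hImpos : (0 : ℝ) < Im.card := by
      have hne : Im.Nonempty := by
        rw [← horb S1 hS1]
        exact Finset.univ_nonempty.image _
      exact_mod_cast Finset.card_pos.2 hne
    have hsum : ∑ S' ∈ S0, (((univ : Finset ι).filter fun h => S'.map (e h) = S).card : ℝ)
        = S0.card * (Fintype.card ι / Im.card) := by
      rw [Finset.sum_congr rfl (g := fun _ => (Fintype.card ι : ℝ) / Im.card),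
        Finset.sum_const, nsmul_eq_mul]
      intro S' hS'
      rw [eq_div_iff hImpos.ne']
      exact hfib S' hS'
    have hι : (0 : ℝ) ≤ Fintype.card ι := Nat.cast_nonneg _
    have h4 : (4 : ℝ) * (C * q) ^ S.card ≤ (4 * C * q) ^ S.card := by
      rw [mul_assoc 4 C q, mul_pow 4 (C * q)]
      refine mul_le_mul_of_nonneg_right ?_ (pow_nonneg (mul_nonneg hC.le hq.le) _)
      calc (4 : ℝ) = 4 ^ 1 := (pow_one 4).symm
        _ ≤ 4 ^ S.card := pow_le_pow_right₀ (by norm_num) hs
    calc (((univ : Finset ι).filter fun h => S ⊆ H0.map (e h)).card : ℝ)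
        ≤ S0.card * (Fintype.card ι / Im.card) := by rw [← hsum]; exact hcard
      _ ≤ (4 * (C * q) ^ S.card * Im.card) * (Fintype.card ι / Im.card) :=
          mul_le_mul_of_nonneg_right hm (by positivity)
      _ = 4 * (C * q) ^ S.card * Fintype.card ι := by field_simp
      _ ≤ (4 * C * q) ^ S.card * Fintype.card ι := mul_le_mul_of_nonneg_right h4 hι

end

end Vale.Agent.P064
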