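import Vale.Agent.Lib.P064.Multi
import Vale.Agent.Lib.P034.Role

set_option linter.unusedSectionVars false

namespace Vale.Agent.P064

open Finset
open Vale.Agent.P034 (Om Pr mem_Om fiber_sum sum_Pr sum_Pr_prod)

section MultiFinal

variable {α β ι : Type*} [Fintype α] [DecidableEq α] [DecidableEq β]

/-- the bound for the cost of stage `s` -/
noncomputable def cb (s : ℕ) : ℝ := if s = 0 then 1 / 100 else 2 * (1 / 100 : ℝ) ^ s

theorem sum_cb (n : ℕ) : ∑ s ∈ range n, cb s ≤ 1 / 10 := by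
  have h1 : ∀ n, ∑ s ∈ range (n + 1), cb s ≤ 1 / 100 + (2 / 99 - (2 / 99) * (1 / 100) ^ n) := by
    intro n
    induction n with
    | zero => simp [cb]
    | succ m ih =>
      rw [sum_range_succ]
      have : cb (m + 1) = 2 * (1 / 100 : ℝ) ^ (m + 1) := by simp [cb]
      rw [this, pow_succ]
      linarith
  rcases n with _ | n
  · simp
  · refine (h1 n).trans ?_
    have : (0 : ℝ) < (2 / 99) * (1 / 100) ^ n := by positivity
    linarith

theorem stage_numM (R : Finset β) (r : β → ℕ)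
    (hcount : ∀ k, ((R.filter fun x => r x = k).card : ℝ) ≤ 2 ^ k) (s : ℕ) :
    2 * (∏ y ∈ R, (1 + bw s (r y))) * (if s = 0 then 1 / 300 else Real.exp (-(5 * 2 ^ s)))
      ≤ cb s := by
  have h1 := prod_bw R r hcount s
  unfold cb
  split_ifs with h
  · subst h
    have h2 : Real.exp ((1 / 400) * 2 ^ 0) ≤ 400 / 399 := by
      have h3 := Real.add_one_le_exp (-((1 / 400) * 2 ^ 0) : ℝ)
      rw [Real.exp_neg] at h3
      have h4 : (0 : ℝ) < Real.exp ((1 / 400) * 2 ^ 0) := Real.exp_pos _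
      have h5 := mul_le_mul_of_nonneg_right h3 h4.le
      rw [inv_mul_cancel₀ h4.ne'] at h5
      norm_num at h5 ⊢
      linarith
    linarith
  · have hs : 1 ≤ s := Nat.one_le_iff_ne_zero.2 h
    have h3 : 2 * (s : ℝ) ≤ 2 ^ s := by
      have h4 : ∀ n : ℕ, 2 * (n + 1) ≤ 2 ^ (n + 1) := by
        intro n
        induction n with
        | zero => norm_num
        | succ m ih => rw [pow_succ]; omega
      obtain ⟨m, rfl⟩ : ∃ m, s = m + 1 := ⟨s - 1, by omega⟩
      exact_mod_cast h4 m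
    have h5 : (0 : ℝ) < 2 ^ s := by positivity
    have h6 : (∏ y ∈ R, (1 + bw s (r y))) * Real.exp (-(5 * 2 ^ s)) ≤ (1 / 100 : ℝ) ^ s := by
      calc (∏ y ∈ R, (1 + bw s (r y))) * Real.exp (-(5 * 2 ^ s))
          ≤ Real.exp ((1 / 400) * 2 ^ s) * Real.exp (-(5 * 2 ^ s)) :=
            mul_le_mul_of_nonneg_right h1 (Real.exp_pos _).le
        _ = Real.exp ((1 / 400) * 2 ^ s + -(5 * 2 ^ s)) := by rw [← Real.exp_add]
        _ ≤ Real.exp (s * (-7)) := by
            refine Real.exp_le_exp.2 ?_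
            linarith
        _ = (Real.exp (-7)) ^ s := by rw [← Real.exp_nat_mul]
        _ ≤ (1 / 100 : ℝ) ^ s := by
            refine pow_le_pow_left₀ (Real.exp_pos _).le ?_ s
            rw [Real.exp_neg, inv_eq_one_div]
            refine one_div_le_one_div_of_le (by norm_num) ?_
            have h8 : (2 : ℝ) ≤ Real.exp 1 := by
              have := Real.add_one_le_exp (1 : ℝ)
              linarith
            have h9 : Real.exp 7 = (Real.exp 1) ^ 7 := by
              rw [← Real.exp_nat_mul]; norm_num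
            rw [h9]
            calc (100 : ℝ) ≤ 2 ^ 7 := by norm_num
              _ ≤ _ := pow_le_pow_left₀ (by norm_num) h8 7
    linarith

open Classical in
theorem hbd_all (e : ι → β ↪ α) (H0 : Finset β) (r0 : β → ℕ)
    (hcount : ∀ k, ((H0.filter fun x => r0 x = k).card : ℝ) ≤ 2 ^ k) (s : ℕ) (h : ι) :
    ∑ T ∈ (cH e H0 h).powerset.filter (IsBad (cr e r0) s h),
      ∏ x ∈ T, bw s (cr e r0 h x) ≤ if s = 0 then 1 / 300 else Real.exp (-(5 * 2 ^ s)) := by
  split_ifs with hs
  · subst hs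
    have h1 : (cH e H0 h).powerset.filter (IsBad (cr e r0) 0 h)
        = (cH e H0 h).powerset.filter (fun T => T.Nonempty) := by
      refine filter_congr fun T _ => ?_
      unfold IsBad
      simp
    rw [h1]
    exact ne_sum _ _ (cr_count e H0 r0 hcount h)
  · have h1 : (cH e H0 h).powerset.filter (IsBad (cr e r0) s h)
        = (cH e H0 h).powerset.filter
          (fun T => 8 * (3 / 2 : ℝ) ^ s < ∑ x ∈ T, (3 / 4 : ℝ) ^ (cr e r0 h x)) := by
      refine filter_congr fun T _ => ?_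
      unfold IsBad Yw
      constructor
      · rintro (⟨h2, _⟩ | ⟨_, h2⟩)
        · exact absurd h2 hs
        · exact h2
      · intro h2; exact Or.inr ⟨Nat.pos_of_ne_zero hs, h2⟩
    rw [h1]
    exact bad_sum _ _ (cr_count e H0 r0 hcount h) (Nat.pos_of_ne_zero hs)

/-- the good event -/
def Good (Hs : ι → Finset α) (role : ι → α → ℕ) (D1 : ℕ) (L : α → ℕ) : Prop :=
  ∃ h1, res Hs role D1 h1 L 0 = ∅ ∧
      ∀ i ∈ Finset.Icc 1 D1, Yw role h1 (res Hs role D1 h1 L i) ≤ 104 * (3 / 2 : ℝ) ^ i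

open Classical in
theorem fail_prob [Fintype ι] [Nonempty ι] (e : ι → β ↪ α) (H0 : Finset β) (r0 : β → ℕ)
    (hcount : ∀ k, ((H0.filter fun x => r0 x = k).card : ℝ) ≤ 2 ^ k)
    (q : ℝ) (hq : 0 < q)
    (hanti : ∀ T' ⊆ H0, T'.Nonempty → ∀ T : Finset α,
      (((univ : Finset ι).filter fun h => T'.map (e h) = T).card : ℝ)
        ≤ 2 * q ^ T'.card * Fintype.card ι)
    (D N : ℕ) (hD : ∀ y ∈ H0, r0 y ≤ D) (μ : ℕ → ℝ) (hμ : ∀ n, 0 ≤ μ n)
    (hμ1 : ∑ n ∈ range (N + 1), μ n = 1)
    (hμq : ∀ n < N, μ n = (1048576 * q) * gam D n) :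
    ∑ L ∈ (Om α N).filter (fun L => ¬ Good (cH e H0) (cr e r0) (D + 1) L), Pr μ L ≤ 1 / 10 := by
  have hι : (0 : ℝ) < Fintype.card ι := by exact_mod_cast Fintype.card_pos
  have hPr : ∀ L : α → ℕ, 0 ≤ Pr μ L := fun L => prod_nonneg fun x _ => hμ _
  have h1 : ∀ L ∈ (Om α N).filter (fun L => ¬ Good (cH e H0) (cr e r0) (D + 1) L),
      Pr μ L * Fintype.card ι ≤ ∑ s ∈ range (D + 1), Pr μ L *
        (((univ : Finset ι).filter fun h0 =>
          FailAt (cH e H0) (cr e r0) (D + 1) s L h0).card : ℝ) := by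
    intro L hL
    rw [mem_filter] at hL
    rw [← mul_sum]
    refine mul_le_mul_of_nonneg_left ?_ (hPr L)
    have h2 : (univ : Finset ι) ⊆ (range (D + 1)).biUnion fun s => (univ : Finset ι).filter
        fun h0 => FailAt (cH e H0) (cr e r0) (D + 1) s L h0 := by
      intro h0 _
      by_contra hno
      refine hL.2 ?_
      refine stage_descend (by omega : 0 < D + 1) (h0 := h0) ?_ ?_
      · have h3 := Vale.Agent.P034.sum_low (cH e H0 h0) (cr e r0 h0) (cr_count e H0 r0 hcount h0)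
          (D + 1)
        have h4 : (cH e H0 h0).filter (fun x => cr e r0 h0 x < D + 1) = cH e H0 h0 := by
          refine filter_true_of_mem fun x hx => ?_
          rw [cH, mem_map] at hx
          obtain ⟨y, hy, rfl⟩ := hx
          rw [cr_apply]
          have := hD y hy; omega
        rw [h4] at h3
        unfold Yw
        have : (0 : ℝ) < (3 / 2 : ℝ) ^ (D + 1) := by positivity
        linarith
      · intro s hs h hOut hsub hrl
        refine hno ?_
        rw [mem_biUnion]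
        refine ⟨s, by rw [mem_range]; exact hs, ?_⟩
        rw [mem_filter]
        exact ⟨mem_univ _, h, hOut, hsub, hrl⟩
    have h3 := (card_le_card h2).trans card_biUnion_le
    rw [card_univ] at h3
    exact_mod_cast h3
  have h2 : (∑ L ∈ (Om α N).filter (fun L => ¬ Good (cH e H0) (cr e r0) (D + 1) L), Pr μ L)
      * Fintype.card ι ≤ (1 / 10) * Fintype.card ι := by
    rw [sum_mul]
    refine (sum_le_sum h1).trans ?_
    rw [sum_comm]
    have h3 : ∀ s ∈ range (D + 1), ∑ L ∈ (Om α N).filter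
        (fun L => ¬ Good (cH e H0) (cr e r0) (D + 1) L), Pr μ L *
        (((univ : Finset ι).filter fun h0 =>
          FailAt (cH e H0) (cr e r0) (D + 1) s L h0).card : ℝ) ≤ cb s * Fintype.card ι := by
      intro s hs
      rw [mem_range] at hs
      have h4 : ∑ L ∈ (Om α N).filter
        (fun L => ¬ Good (cH e H0) (cr e r0) (D + 1) L), Pr μ L *
        (((univ : Finset ι).filter fun h0 =>
          FailAt (cH e H0) (cr e r0) (D + 1) s L h0).card : ℝ)
          ≤ ∑ L ∈ Om α N, Pr μ L *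
        (((univ : Finset ι).filter fun h0 =>
          FailAt (cH e H0) (cr e r0) (D + 1) s L h0).card : ℝ) := by
        refine sum_le_sum_of_subset_of_nonneg (filter_subset _ _) fun L _ _ => ?_
        exact mul_nonneg (hPr L) (Nat.cast_nonneg _)
      refine h4.trans ?_
      refine (stage_expect e H0 r0 q hq hanti D N μ hμ hμ1 hμq s hs _
        (hbd_all e H0 r0 hcount s)).trans ?_
      have h5 := stage_numM H0 r0 hcount s
      have h6 := mul_le_mul_of_nonneg_right h5 hι.le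
      refine le_trans (le_of_eq ?_) h6
      ring
    refine (sum_le_sum h3).trans ?_
    rw [← sum_mul]
    exact mul_le_mul_of_nonneg_right (sum_cb _) hι.le
  exact le_of_mul_le_mul_right h2 hι

/-- the constant of the final functional -/
noncomputable def kp : ℝ := (32 : ℝ) ^ 2000

theorem one_le_kp : 1 ≤ kp := one_le_pow₀ (by norm_num)

theorem kp_pos : 0 < kp := by have := one_le_kp; linarith

/-- double counting of weights -/
theorem sum_weight (S0 : Finset (Finset β)) (H0 : Finset β) (hS0 : ∀ S ∈ S0, S ⊆ H0)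
    (f : β → ℝ) :
    ∑ y ∈ H0, ((S0.filter fun S => y ∈ S).card : ℝ) * f y = ∑ S ∈ S0, ∑ y ∈ S, f y := by
  have h1 : ∀ y ∈ H0, ((S0.filter fun S => y ∈ S).card : ℝ) * f y
      = ∑ S ∈ S0, if y ∈ S then f y else 0 := by
    intro y _
    rw [← sum_filter, sum_const, nsmul_eq_mul]
  rw [sum_congr rfl h1, sum_comm]
  refine sum_congr rfl fun S hS => ?_
  rw [← sum_filter, filter_mem_eq_inter, inter_eq_right.2 (hS0 S hS)]

/-- on the good event many sets have small average excess -/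
theorem good_mass (e : ι → β ↪ α) (H0 : Finset β) (S0 : Finset (Finset β)) (s0 : ℕ)
    (hs0 : 1 ≤ s0) (hS0 : ∀ S ∈ S0, S ⊆ H0 ∧ S.card = s0) (r0 : β → ℕ) (D : ℕ)
    (hD : ∀ y ∈ H0, r0 y ≤ D)
    (hrole : ∀ x ∈ H0, ∀ k, r0 x = k + 1 →
      ((S0.filter fun S => x ∈ S).card : ℝ) * 2 ^ k
        ≤ ∑ y ∈ H0.filter (fun y => r0 y = k), ((S0.filter fun S => y ∈ S).card : ℝ))
    (L : α → ℕ) (hg : Good (cH e H0) (cr e r0) (D + 1) L) :
    (S0.card : ℝ) / 2 ≤ ∑ O ∈ ((S0.image fun S => S.map (e (hg.choose)))),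
      ∏ x ∈ O, (kp * disc D (L x)) := by
  classical
  obtain ⟨g1, g2⟩ := hg.choose_spec
  set h1 := hg.choose with hh1
  rw [sum_image (fun S _ S' _ h => map_injective (e h1) h)]
  -- the label bounds, pulled back
  have k1 : ∀ y ∈ H0, L (e h1 y) ≤ r0 y + (D + 1) := by
    intro y hy
    by_contra hcon
    have : e h1 y ∈ res (cH e H0) (cr e r0) (D + 1) h1 L 0 := by
      rw [mem_res, cr_apply]
      exact ⟨mem_map_of_mem _ hy, by omega⟩
    rw [g1] at this
    exact absurd this (notMem_empty _)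
  have k2 : ∀ i ∈ Finset.Icc 1 (D + 1),
      ∑ y ∈ H0.filter (fun y => r0 y + (D + 1) < L (e h1 y) + i), (3 / 4 : ℝ) ^ r0 y
        ≤ 104 * (3 / 2 : ℝ) ^ i := by
    intro i hi
    refine le_trans (le_of_eq ?_) (g2 i hi)
    have h2 : res (cH e H0) (cr e r0) (D + 1) h1 L i
        = (H0.filter (fun y => r0 y + (D + 1) < L (e h1 y) + i)).map (e h1) := by
      ext x
      rw [mem_res]
      simp only [cH, mem_map, mem_filter]
      constructor
      · rintro ⟨⟨y, hy, rfl⟩, h3⟩
        rw [cr_apply] at h3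
        exact ⟨y, ⟨hy, h3⟩, rfl⟩
      · rintro ⟨y, ⟨hy, h3⟩, rfl⟩
        exact ⟨⟨y, hy, rfl⟩, by rw [cr_apply]; exact h3⟩
    rw [h2]
    unfold Yw
    rw [sum_cr e r0 h1 _ (fun n => (3 / 4 : ℝ) ^ n)]
  have k3 := Vale.Agent.P034.excess_bound H0 (fun y => ((S0.filter fun S => y ∈ S).card : ℝ))
    (fun y => Nat.cast_nonneg _) r0 (fun y => L (e h1 y)) D hD hrole k1 k2
  rw [sum_weight S0 H0 (fun S hS => (hS0 S hS).1)] at k3
  have k4 := sum_weight S0 H0 (fun S hS => (hS0 S hS).1) (fun _ => (1 : ℝ))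
  simp only [mul_one] at k4
  rw [k4] at k3
  have k5 : ∑ S ∈ S0, ∑ y ∈ S, (1 : ℝ) = S0.card * s0 := by
    have : ∀ S ∈ S0, ∑ y ∈ S, (1 : ℝ) = s0 := by
      intro S hS
      rw [sum_const, (hS0 S hS).2, nsmul_eq_mul, mul_one]
    rw [sum_congr rfl this, sum_const, nsmul_eq_mul]
  rw [k5] at k3
  -- Markov
  set good : Finset β → Prop := fun S => ∑ y ∈ S, ((L (e h1 y) - D : ℕ) : ℝ) ≤ 2000 * s0
    with hgood
  have k6 : ((S0.filter fun S => ¬ good S).card : ℝ) * (2000 * s0)
      ≤ ∑ S ∈ S0, ∑ y ∈ S, ((L (e h1 y) - D : ℕ) : ℝ) := by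
    rw [← nsmul_eq_mul, ← sum_const]
    refine (sum_le_sum (g := fun S => ∑ y ∈ S, ((L (e h1 y) - D : ℕ) : ℝ)) ?_).trans ?_
    · intro S hS
      rw [mem_filter] at hS
      exact (not_le.1 hS.2).le
    · refine sum_le_sum_of_subset_of_nonneg (filter_subset _ _) fun S _ _ => ?_
      exact sum_nonneg fun _ _ => Nat.cast_nonneg _
  have hs0' : (0 : ℝ) < s0 := by exact_mod_cast hs0
  have k7 : ((S0.filter fun S => ¬ good S).card : ℝ) ≤ S0.card / 2 := by
    have h2 : ((S0.filter fun S => ¬ good S).card : ℝ) * (2000 * s0)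
        ≤ (S0.card / 2) * (2000 * s0) := by
      refine (k6.trans k3).trans (le_of_eq ?_)
      ring
    exact le_of_mul_le_mul_right h2 (by positivity)
  have k8 : ((S0.filter good).card : ℝ) + ((S0.filter fun S => ¬ good S).card : ℝ)
      = S0.card := by
    exact_mod_cast card_filter_add_card_filter_not (s := S0) good
  have k9 : (S0.card : ℝ) / 2 ≤ (S0.filter good).card := by linarith
  refine k9.trans ?_
  rw [← mul_one ((S0.filter good).card : ℝ), ← nsmul_eq_mul, ← sum_const]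
  refine (sum_le_sum (g := fun S => ∏ x ∈ S.map (e h1), (kp * disc D (L x))) ?_).trans ?_
  · intro S hS
    rw [mem_filter] at hS
    rw [prod_map, prod_mul_distrib, prod_const, (hS0 S hS.1).2]
    unfold disc kp
    rw [prod_pow_eq_pow_sum, ← pow_mul]
    have h6 : ∑ y ∈ S, (L (e h1 y) - D) ≤ 2000 * s0 := by
      have := hS.2
      simp only [hgood] at this
      exact_mod_cast this
    calc (1 : ℝ) = (32 : ℝ) ^ (2000 * s0) * (1 / 32 : ℝ) ^ (2000 * s0) := by
          rw [← mul_pow]; norm_num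
      _ ≤ (32 : ℝ) ^ (2000 * s0) * (1 / 32 : ℝ) ^ (∑ y ∈ S, (L (e h1 y) - D)) := by
          refine mul_le_mul_of_nonneg_left ?_ (by positivity)
          exact pow_le_pow_of_le_one (by norm_num) (by norm_num) h6
  · refine sum_le_sum_of_subset_of_nonneg (filter_subset _ _) fun S _ _ => ?_
    refine prod_nonneg fun x _ => mul_nonneg kp_pos.le ?_
    unfold disc; positivity

/-- the universal constant of the multi-scale theorem -/
noncomputable def bigC : ℝ := 3 * 1048576 * kp

theorem bigC_pos : 0 < bigC := by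
  have := kp_pos
  unfold bigC; positivity

/-- **Multi-scale theorem.** -/
theorem multiscale [Fintype ι] [Nonempty ι] (e : ι → β ↪ α) (H0 : Finset β) (q : ℝ) (hq : 0 < q)
    (hanti : ∀ T' ⊆ H0, T'.Nonempty → ∀ T : Finset α,
      (((univ : Finset ι).filter fun h => T'.map (e h) = T).card : ℝ)
        ≤ 2 * q ^ T'.card * Fintype.card ι)
    (s : ℕ) (hs : 1 ≤ s) (S0 : Finset (Finset β)) (hS0 : ∀ S ∈ S0, S ⊆ H0 ∧ S.card = s) :
    (S0.card : ℝ) ≤ 4 * (bigC * q) ^ s *
      (((univ : Finset ι) ×ˢ S0).image fun z => z.2.map (e z.1)).card := by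
  classical
  obtain ⟨r0, hr1, hr2, hr3⟩ := Vale.Agent.P034.exists_role H0
    (fun y => ((S0.filter fun S => y ∈ S).card : ℝ))
  set D := H0.card with hD
  have hrD : ∀ y ∈ H0, r0 y ≤ D := fun y hy => (hr3 y hy).le
  obtain ⟨N, μ, hμ0, hμ1, hμ2, hμ3⟩ := exists_law (1048576 * q) (by positivity) D
  have hPr : ∀ L : α → ℕ, 0 ≤ Pr μ L := fun L => prod_nonneg fun x _ => hμ0 _
  set Ofam := ((univ : Finset ι) ×ˢ S0).image fun z => z.2.map (e z.1) with hOfam
  have hOcard : ∀ O ∈ Ofam, O.card = s := by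
    intro O hO
    rw [hOfam, mem_image] at hO
    obtain ⟨z, hz, rfl⟩ := hO
    rw [mem_product] at hz
    rw [card_map]
    exact (hS0 _ hz.2).2
  have hterm : ∀ (L : α → ℕ) (O : Finset α), 0 ≤ ∏ x ∈ O, (kp * disc D (L x)) := by
    intro L O
    refine prod_nonneg fun x _ => mul_nonneg kp_pos.le ?_
    unfold disc; positivity
  -- expectation of the functional
  have hE : ∑ L ∈ Om α N, Pr μ L * ∑ O ∈ Ofam, ∏ x ∈ O, (kp * disc D (L x))
      ≤ (bigC * q) ^ s * Ofam.card := by
    have e1 : ∑ L ∈ Om α N, Pr μ L * ∑ O ∈ Ofam, ∏ x ∈ O, (kp * disc D (L x))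
        = ∑ O ∈ Ofam, (∑ n ∈ range (N + 1), μ n * (kp * disc D n)) ^ s := by
      have : ∀ L ∈ Om α N, Pr μ L * ∑ O ∈ Ofam, ∏ x ∈ O, (kp * disc D (L x))
          = ∑ O ∈ Ofam, Pr μ L * ∏ x ∈ O, (kp * disc D (L x)) := fun L _ => mul_sum _ _ _
      rw [sum_congr rfl this, sum_comm]
      refine sum_congr rfl fun O hO => ?_
      rw [sum_Pr_prod N μ hμ1 O (fun n => kp * disc D n), hOcard O hO]
    rw [e1, sum_const, nsmul_eq_mul, mul_comm]
    refine mul_le_mul_of_nonneg_right ?_ (Nat.cast_nonneg _)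
    have hA0 : 0 ≤ ∑ n ∈ range (N + 1), μ n * (kp * disc D n) := by
      refine sum_nonneg fun n _ => mul_nonneg (hμ0 n) (mul_nonneg kp_pos.le ?_)
      unfold disc; positivity
    refine pow_le_pow_left₀ hA0 ?_ s
    have h1 : ∑ n ∈ range (N + 1), μ n * (kp * disc D n)
        ≤ ∑ n ∈ range (N + 1), (1048576 * q * kp) * (gam D n * disc D n) := by
      refine sum_le_sum fun n hn => ?_
      rw [mem_range] at hn
      have h2 := hμ3 n (by omega)
      have h3 : 0 ≤ kp * disc D n := mul_nonneg kp_pos.le (by unfold disc; positivity)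
      refine (mul_le_mul_of_nonneg_right h2 h3).trans (le_of_eq ?_)
      ring
    refine h1.trans ?_
    rw [← mul_sum]
    have h2 := disc_sum D (N + 1)
    have h3 : 0 ≤ 1048576 * q * kp := by have := kp_pos; positivity
    refine (mul_le_mul_of_nonneg_left h2 h3).trans (le_of_eq ?_)
    unfold bigC
    ring
  -- lower bound through the good event
  have hfail := fail_prob e H0 r0 hr1 q hq hanti D N hrD μ hμ0 hμ1 hμ2
  have hgood : 9 / 10 ≤ ∑ L ∈ (Om α N).filter
      (fun L => Good (cH e H0) (cr e r0) (D + 1) L), Pr μ L := by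
    have h1 := sum_filter_add_sum_filter_not (Om α N)
      (fun L => Good (cH e H0) (cr e r0) (D + 1) L) (fun L => Pr μ L)
    rw [sum_Pr N μ hμ1] at h1
    linarith
  have hlow : (9 / 10) * ((S0.card : ℝ) / 2)
      ≤ ∑ L ∈ Om α N, Pr μ L * ∑ O ∈ Ofam, ∏ x ∈ O, (kp * disc D (L x)) := by
    have h1 : (9 / 10) * ((S0.card : ℝ) / 2) ≤ ∑ L ∈ (Om α N).filter
        (fun L => Good (cH e H0) (cr e r0) (D + 1) L), Pr μ L * ((S0.card : ℝ) / 2) := by
      rw [← sum_mul]
      exact mul_le_mul_of_nonneg_right hgood (by positivity)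
    refine h1.trans ?_
    refine (sum_le_sum (g := fun L => Pr μ L * ∑ O ∈ Ofam,
      ∏ x ∈ O, (kp * disc D (L x))) ?_).trans ?_
    · intro L hL
      rw [mem_filter] at hL
      refine mul_le_mul_of_nonneg_left ?_ (hPr L)
      have h2 := good_mass e H0 S0 s hs hS0 r0 D hrD hr2 L hL.2
      refine h2.trans ?_
      refine sum_le_sum_of_subset_of_nonneg ?_ fun O _ _ => hterm L O
      intro O hO
      rw [mem_image] at hO
      obtain ⟨S, hS, rfl⟩ := hO
      rw [hOfam, mem_image]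
      exact ⟨(hL.2.choose, S), by rw [mem_product]; exact ⟨mem_univ _, hS⟩, rfl⟩
    · refine sum_le_sum_of_subset_of_nonneg (filter_subset _ _) fun L _ _ => ?_
      exact mul_nonneg (hPr L) (sum_nonneg fun O _ => hterm L O)
  have h2 := hlow.trans hE
  have h3 : 0 ≤ (bigC * q) ^ s * (Ofam.card : ℝ) := by
    have := bigC_pos; positivity
  linarith

end MultiFinal

end Vale.Agent.P064
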