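import Vale.Agent.Lib.P064.Spread
import Vale.Agent.Lib.P064.GraphA
import Vale.Agent.Lib.P064.GraphB
import Vale.Agent.Lib.P064.GraphC
import Vale.Agent.Lib.P064.Homog
import Vale.Agent.Lib.P064.MultiFinal

set_option linter.unusedSectionVars false

namespace Vale.Agent.P064

open Finset

/-- the universal constant -/
noncomputable def finC : ℝ := 32768 * bigC

theorem finC_pos : 0 < finC := by
  have := bigC_pos
  unfold finC; positivity

theorem card_edgeF_le {V : Type} [Fintype V] (H : SimpleGraph V) {n : ℕ}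
    (hV : Fintype.card V ≤ n) : (edgeF H).card ≤ n ^ 2 := by
  classical
  have h1 : (edgeF H).card ≤ Fintype.card (Edge V) := card_le_univ _
  have h2 : Fintype.card (Edge V) = (Fintype.card V).choose 2 := Sym2.card_subtype_not_diag
  have h3 : (Fintype.card V).choose 2 ≤ (Fintype.card V) ^ 2 := Nat.choose_le_pow _ _
  have h4 : (Fintype.card V) ^ 2 ≤ n ^ 2 := Nat.pow_le_pow_left hV 2
  omega

/-- the uniform measure on the copies of `H` is `O(p_E)`-spread -/
theorem copies_spread {n : ℕ} {V : Type} [Fintype V] [DecidableEq V] (H : SimpleGraph V)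
    (hV : Fintype.card V ≤ n) (hH : H.edgeSet.Nonempty) :
    ∀ S : Finset (Edge (Fin n)), S.Nonempty →
      (((univ : Finset (V ↪ Fin n)).filter fun φ => S ⊆ (edgeF H).map (emap φ)).card : ℝ)
        ≤ (4 * bigC * pE n H) ^ S.card * Fintype.card (V ↪ Fin n) := by
  classical
  have hne : Nonempty (V ↪ Fin n) := Function.Embedding.nonempty_of_card_le (by simpa using hV)
  have hq := pE_pos H hV hH
  obtain ⟨hq0, hq1, hqF⟩ := (isLeast_pE H hV).1
  have horb : ∀ T' ⊆ edgeF H, T'.Nonempty → 1 / 2 ≤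
      (((univ : Finset (V ↪ Fin n)).image fun φ => T'.map (emap φ)).card : ℝ)
        * pE n H ^ T'.card := by
    intro T' hT' _
    obtain ⟨F, hF⟩ := exists_subgraph_expCopy_le (n := n) hV H T' hT'
    exact (hqF F).trans (hF _ hq0 hq1)
  have hanti := homog_anti (fun φ : V ↪ Fin n => emap φ) emap_trans (edgeF H) (pE n H) hq horb
  exact homog_spread (fun φ : V ↪ Fin n => emap φ) emap_trans (edgeF H) (pE n H) bigC hq bigC_pos
    (fun s hs S0 hS0 => multiscale (fun φ : V ↪ Fin n => emap φ) (edgeF H) (pE n H) hq hanti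
      s hs S0 hS0)

theorem clog_bound {n : ℕ} (hn : 2 ≤ n) :
    ((2 * Nat.clog 2 n : ℕ) : ℝ) + 1 ≤ 8 * Real.log n := by
  have hlog2 : 0.6931471803 < Real.log 2 := Real.log_two_gt_d9
  have hn0 : (0 : ℝ) < n := by positivity
  have h1 : Real.log 2 ≤ Real.log n := Real.log_le_log (by norm_num) (by exact_mod_cast hn)
  have h2 : 2 ^ (Nat.clog 2 n - 1) < n := Nat.pow_pred_clog_lt_self (by norm_num) (by omega)
  have h3 : 1 ≤ Nat.clog 2 n := Nat.clog_pos (by norm_num) (by omega)
  have h4 : ((Nat.clog 2 n - 1 : ℕ) : ℝ) * Real.log 2 ≤ Real.log n := by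
    rw [← Real.log_pow]
    refine Real.log_le_log (by positivity) ?_
    exact_mod_cast h2.le
  have h5 : ((Nat.clog 2 n - 1 : ℕ) : ℝ) = (Nat.clog 2 n : ℝ) - 1 := by
    rw [Nat.cast_sub h3, Nat.cast_one]
  rw [h5] at h4
  push_cast
  set c : ℝ := (Nat.clog 2 n : ℝ) with hc
  -- `(c - 1) log 2 ≤ log n`
  have h6 : (c - 1) * 0.69 ≤ Real.log n := by
    by_cases hc1 : 1 ≤ c
    · nlinarith
    · push Not at hc1
      nlinarith
  nlinarith

/-- **The second Kahn–Kalai conjecture.** -/
theorem second_kahn_kalai (n : ℕ) (hn : 2 ≤ n) (V : Type) [Fintype V] (H : SimpleGraph V)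
    (hV : Fintype.card V ≤ n) (hH : H.edgeSet.Nonempty) :
    pc n H ≤ finC * pE n H * Real.log n := by
  classical
  have hne : Nonempty (V ↪ Fin n) := Function.Embedding.nonempty_of_card_le (by simpa using hV)
  have hq := pE_pos H hV hH
  have hb := bigC_pos
  have hpc := isLeast_pc H hV
  have hsp := copies_spread H hV hH
  set ℓ : ℕ := 2 * Nat.clog 2 n with hℓdef
  have hℓ : ∀ φ : V ↪ Fin n, ((edgeF H).map (emap φ)).card ≤ 2 ^ ℓ := by
    intro φ
    rw [card_map]
    refine (card_edgeF_le H hV).trans ?_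
    rw [hℓdef, mul_comm, pow_mul]
    exact Nat.pow_le_pow_left (Nat.le_pow_clog (by norm_num) n) 2
  set κ : ℝ := 4 * bigC * pE n H with hκ
  have hκ0 : 0 < κ := by positivity
  set p : ℝ := 1024 * κ * (ℓ + 1) with hp
  have hple : p ≤ finC * pE n H * Real.log n := by
    have h1 := clog_bound hn
    rw [← hℓdef] at h1
    have h2 : p = (4096 * bigC * pE n H) * ((ℓ : ℝ) + 1) := by rw [hp, hκ]; ring
    have h3 : finC * pE n H * Real.log n = (4096 * bigC * pE n H) * (8 * Real.log n) := by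
      unfold finC; ring
    rw [h2, h3]
    exact mul_le_mul_of_nonneg_left h1 (by positivity)
  refine le_trans ?_ hple
  rcases le_or_gt p 1 with hp1 | hp1
  · refine hpc.2 ⟨by positivity, hp1, ?_⟩
    rw [probCopy_eq]
    exact spread_threshold (fun φ : V ↪ Fin n => (edgeF H).map (emap φ)) ℓ hℓ κ hκ0 hsp p hp1 le_rfl
  · exact hpc.1.2.1.trans hp1.le

end Vale.Agent.P064
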