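import Mathlib

set_option linter.unusedSectionVars false

namespace Vale.Agent.P064

open Finset
open scoped NNReal

section Decode

variable {α ι : Type*} [DecidableEq α]

/-- the part of the copy `h` whose label exceeds its role by more than `D1 - j` -/
def res (Hs : ι → Finset α) (role : ι → α → ℕ) (D1 : ℕ) (h : ι) (L : α → ℕ) (j : ℕ) : Finset α :=
  (Hs h).filter fun x => role h x + D1 < L x + j

/-- weight of a set with respect to the roles in the copy `h` -/
noncomputable def Yw (role : ι → α → ℕ) (h : ι) (T : Finset α) : ℝ :=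
  ∑ x ∈ T, (3 / 4 : ℝ) ^ (role h x)

/-- allowed bound -/
noncomputable def bnd (j i : ℕ) : ℝ := 8 * (13 * (3 / 2 : ℝ) ^ i - 12 * (3 / 2 : ℝ) ^ j)

/-- excess over the allowed bounds at levels `i ∈ [j, D1]` -/
noncomputable def Vex (Hs : ι → Finset α) (role : ι → α → ℕ) (D1 j : ℕ) (h : ι)
    (L : α → ℕ) : ℝ≥0 :=
  (Finset.Icc j D1).sup fun i => Real.toNNReal (Yw role h (res Hs role D1 h L i) - bnd j i)

variable {Hs : ι → Finset α}

theorem mem_res {role : ι → α → ℕ} {D1 : ℕ} {h : ι} {L : α → ℕ} {j : ℕ} {x : α} :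
    x ∈ res Hs role D1 h L j ↔ x ∈ Hs h ∧ role h x + D1 < L x + j := by
  rw [res, mem_filter]

theorem Vex_le_iff {role : ι → α → ℕ} {D1 j : ℕ} {h : ι} {L : α → ℕ} {v : ℝ}
    (hv : 0 ≤ v) :
    (Vex Hs role D1 j h L : ℝ) ≤ v ↔
      ∀ i ∈ Finset.Icc j D1, Yw role h (res Hs role D1 h L i) ≤ bnd j i + v := by
  have h1 : (Vex Hs role D1 j h L : ℝ) ≤ v ↔ Vex Hs role D1 j h L ≤ Real.toNNReal v := by
    rw [← NNReal.coe_le_coe, Real.coe_toNNReal v hv]
  rw [h1, Vex, Finset.sup_le_iff]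
  refine forall₂_congr fun i _ => ?_
  rw [Real.toNNReal_le_toNNReal_iff hv]
  constructor <;> intro h <;> linarith

theorem Yw_nonneg (role : ι → α → ℕ) (h : ι) (T : Finset α) : 0 ≤ Yw role h T :=
  sum_nonneg fun _ _ => by positivity

theorem Yw_mono (role : ι → α → ℕ) (h : ι) {S T : Finset α} (hST : S ⊆ T) :
    Yw role h S ≤ Yw role h T :=
  sum_le_sum_of_subset_of_nonneg hST fun _ _ _ => by positivity

/-- the functional minimised at stage `s` -/
noncomputable def Phi (Hs : ι → Finset α) (role : ι → α → ℕ) (D1 s : ℕ) (h : ι)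
    (L : α → ℕ) : ℝ :=
  Yw role h (res Hs role D1 h L s) + (1 / 4) * (Vex Hs role D1 (s + 1) h L : ℝ)

/-- badness of a residual set -/
def IsBad (role : ι → α → ℕ) (s : ℕ) (h : ι) (T : Finset α) : Prop :=
  (s = 0 ∧ T.Nonempty) ∨ (0 < s ∧ 8 * (3 / 2 : ℝ) ^ s < Yw role h T)

/-- the copy `h` outputs its residual set at stage `s` under the labels `L` -/
def Out (Hs : ι → Finset α) (role : ι → α → ℕ) (D1 : ℕ) (s : ℕ) (L : α → ℕ)
    (h : ι) : Prop :=
  IsBad role s h (res Hs role D1 h L s) ∧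
    (Vex Hs role D1 (s + 1) h L : ℝ) ≤ 32 * (3 / 2 : ℝ) ^ (s + 1) ∧
    ∀ h', res Hs role D1 h' L s ⊆ res Hs role D1 h L s →
      (∀ x ∈ res Hs role D1 h' L s, role h x ≤ role h' x) →
      Phi Hs role D1 s h L ≤ Phi Hs role D1 s h' L

/-- the decoding choice -/
def IsDec (Hs : ι → Finset α) (role : ι → α → ℕ) (D1 : ℕ) (s : ℕ) (L : α → ℕ)
    (hs : ι) : Prop :=
  res Hs role D1 hs L s = ∅ ∧
    ∀ h, res Hs role D1 h L s = ∅ → Vex Hs role D1 (s + 1) hs L ≤ Vex Hs role D1 (s + 1) h L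

theorem exists_isDec [Fintype ι] {role : ι → α → ℕ} {D1 : ℕ} {s : ℕ}
    {L : α → ℕ} {h : ι} (h0 : res Hs role D1 h L s = ∅) :
    ∃ hs, IsDec Hs role D1 s L hs := by
  classical
  obtain ⟨hs, hhs, hmin⟩ := ((univ : Finset ι).filter fun h => res Hs role D1 h L s = ∅).exists_min_image
    (fun h => Vex Hs role D1 (s + 1) h L) ⟨h, by simp [h0]⟩
  rw [mem_filter] at hhs
  exact ⟨hs, hhs.2, fun h' h2 => hmin h' (by simp [h2])⟩

/-- the modified labels -/
def relabel (role : ι → α → ℕ) (D1 s : ℕ) (h : ι) (T : Finset α) (L : α → ℕ) : α → ℕ :=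
  fun x => if x ∈ T then role h x + D1 - s else L x

theorem res_mono (role : ι → α → ℕ) (D1 : ℕ) (h : ι) (L : α → ℕ) {i j : ℕ}
    (hij : i ≤ j) : res Hs role D1 h L i ⊆ res Hs role D1 h L j := by
  intro x hx
  rw [mem_res] at hx ⊢
  exact ⟨hx.1, by omega⟩

/-- exactness of the decoding -/
theorem decode {role : ι → α → ℕ} {D1 : ℕ} {s : ℕ}
    (hs : s < D1) {L : α → ℕ} {h : ι} {T : Finset α} (hT : res Hs role D1 h L s = T)
    (hV : (Vex Hs role D1 (s + 1) h L : ℝ) ≤ 32 * (3 / 2 : ℝ) ^ (s + 1))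
    (hmin : ∀ h', res Hs role D1 h' L s ⊆ T → (∀ x ∈ res Hs role D1 h' L s, role h x ≤ role h' x) →
      Phi Hs role D1 s h L ≤ Phi Hs role D1 s h' L)
    {hd : ι} (hdec : IsDec Hs role D1 s (relabel role D1 s h T L) hd) :
    T ⊆ Hs hd ∧ (∀ x ∈ T, role hd x = role h x) ∧
      T ⊆ res Hs role D1 hd (relabel role D1 s h T L) (s + 1) ∧
      Yw role hd (res Hs role D1 hd (relabel role D1 s h T L) (s + 1))
        ≤ 40 * (3 / 2 : ℝ) ^ (s + 1) := by
  classical
  set L' := relabel role D1 s h T L with hL'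
  have hL'T : ∀ x ∈ T, L' x + s = role h x + D1 := by
    intro x hx
    simp only [hL', relabel, if_pos hx]
    omega
  have hL'n : ∀ x, x ∉ T → L' x = L x := by
    intro x hx
    simp only [hL', relabel, if_neg hx]
  have hTH : T ⊆ Hs h := by
    rw [← hT]; exact filter_subset _ _
  have hlt : ∀ x ∈ T, L' x < L x := by
    intro x hx
    have h1 := hL'T x hx
    rw [← hT, mem_res] at hx
    omega
  -- residual sets of `h`
  have hres0 : res Hs role D1 h L' s = ∅ := by
    rw [eq_empty_iff_forall_notMem]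
    intro x hx
    rw [mem_res] at hx
    by_cases hxT : x ∈ T
    · have := hL'T x hxT
      omega
    · rw [hL'n x hxT] at hx
      exact hxT (by rw [← hT, mem_res]; exact hx)
  have hresi : ∀ i, s + 1 ≤ i → res Hs role D1 h L' i = res Hs role D1 h L i := by
    intro i hi
    ext x
    rw [mem_res, mem_res]
    by_cases hxT : x ∈ T
    · have h1 := hL'T x hxT
      have h2 := hlt x hxT
      constructor
      · rintro ⟨h3, h4⟩; exact ⟨h3, by omega⟩
      · rintro ⟨h3, h4⟩; exact ⟨h3, by omega⟩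
    · rw [hL'n x hxT]
  have hVeq : Vex Hs role D1 (s + 1) h L' = Vex Hs role D1 (s + 1) h L := by
    unfold Vex
    refine Finset.sup_congr rfl fun i hi => ?_
    rw [mem_Icc] at hi
    rw [hresi i hi.1]
  obtain ⟨hHs0, hHsmin⟩ := hdec
  have hVs : Vex Hs role D1 (s + 1) hd L' ≤ Vex Hs role D1 (s + 1) h L := by
    rw [← hVeq]; exact hHsmin h hres0
  have hVs' : (Vex Hs role D1 (s + 1) hd L' : ℝ) ≤ (Vex Hs role D1 (s + 1) h L : ℝ) := by
    exact_mod_cast hVs
  -- roles can only increase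
  have hrole : ∀ x ∈ T, x ∈ Hs hd → role h x ≤ role hd x := by
    intro x hx hxs
    by_contra hcon
    have h1 := hL'T x hx
    have h2 : x ∈ res Hs role D1 hd L' s := by
      rw [mem_res]; exact ⟨hxs, by omega⟩
    rw [hHs0] at h2
    exact absurd h2 (notMem_empty x)
  have hsubs : res Hs role D1 hd L s ⊆ T ∩ Hs hd := by
    intro x hx
    rw [mem_res] at hx
    rw [mem_inter]
    refine ⟨?_, hx.1⟩
    by_contra hxT
    have h2 : x ∈ res Hs role D1 hd L' s := by
      rw [mem_res, hL'n x hxT]; exact hx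
    rw [hHs0] at h2
    exact absurd h2 (notMem_empty x)
  have hmin' := hmin hd (hsubs.trans inter_subset_left) (fun x hx => by
    have h1 := hsubs hx
    rw [mem_inter] at h1
    exact hrole x h1.1 h1.2)
  -- the increment of the excess
  set B : Finset α := (T ∩ Hs hd).filter fun x => role h x < role hd x with hB
  set δ : ℝ := Yw role hd B with hδ
  have hδ0 : 0 ≤ δ := Yw_nonneg _ _ _
  have hVinc : (Vex Hs role D1 (s + 1) hd L : ℝ) ≤ (Vex Hs role D1 (s + 1) hd L' : ℝ) + δ := by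
    rw [Vex_le_iff (by positivity)]
    intro i hi
    have h0 : Yw role hd (res Hs role D1 hd L' i) ≤
        bnd (s + 1) i + (Vex Hs role D1 (s + 1) hd L' : ℝ) :=
      (Vex_le_iff (NNReal.coe_nonneg _)).1 le_rfl i hi
    rw [mem_Icc] at hi
    have h1 : res Hs role D1 hd L i ⊆ res Hs role D1 hd L' i ∪ B := by
      intro x hx
      rw [mem_union]
      by_cases hx' : x ∈ res Hs role D1 hd L' i
      · exact Or.inl hx'
      · right
        rw [mem_res] at hx hx'
        rw [hB, mem_filter, mem_inter]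
        have hxT : x ∈ T := by
          by_contra hxT
          rw [hL'n x hxT] at hx'
          exact hx' hx
        have h3 := hL'T x hxT
        have h4 : ¬ (role hd x + D1 < L' x + i) := fun h => hx' ⟨hx.1, h⟩
        exact ⟨⟨hxT, hx.1⟩, by omega⟩
    have h2 : Yw role hd (res Hs role D1 hd L i) ≤ Yw role hd (res Hs role D1 hd L' i) + δ := by
      refine (Yw_mono role hd h1).trans ?_
      unfold Yw at hδ ⊢
      rw [hδ, ← sum_union_inter]
      have : 0 ≤ ∑ x ∈ res Hs role D1 hd L' i ∩ B, (3 / 4 : ℝ) ^ role hd x :=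
        sum_nonneg fun _ _ => by positivity
      linarith
    linarith
  -- main comparison
  have hkey : ∑ x ∈ T, (3 / 4 : ℝ) ^ role h x ≤ ∑ x ∈ T, (if x ∈ Hs hd then
      (if role h x < role hd x then (15 / 16) * (3 / 4 : ℝ) ^ role h x
        else (3 / 4 : ℝ) ^ role h x) else 0) := by
    have h1 : Yw role hd (res Hs role D1 hd L s) ≤ Yw role hd (T ∩ Hs hd) := Yw_mono role hd hsubs
    have h2 : Yw role h T + (1 / 4) * (Vex Hs role D1 (s + 1) h L : ℝ)
        ≤ Yw role hd (T ∩ Hs hd) + (1 / 4) * ((Vex Hs role D1 (s + 1) h L : ℝ) + δ) := by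
      have := hmin'
      unfold Phi at this
      rw [hT] at this
      linarith
    have h3 : Yw role h T ≤ Yw role hd (T ∩ Hs hd) + (1 / 4) * δ := by linarith
    have h4 : Yw role hd (T ∩ Hs hd) + (1 / 4) * δ ≤ ∑ x ∈ T, (if x ∈ Hs hd then
      (if role h x < role hd x then (15 / 16) * (3 / 4 : ℝ) ^ role h x
        else (3 / 4 : ℝ) ^ role h x) else 0) := by
      rw [hδ, hB]
      unfold Yw
      rw [← filter_mem_eq_inter, sum_filter, sum_filter, sum_filter, mul_sum, ← sum_add_distrib]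
      refine sum_le_sum fun x hx => ?_
      by_cases hxs : x ∈ Hs hd
      · simp only [if_pos hxs]
        by_cases hlt' : role h x < role hd x
        · simp only [if_pos hlt']
          have h5 : (3 / 4 : ℝ) ^ role hd x ≤ (3 / 4 : ℝ) ^ (role h x + 1) :=
            pow_le_pow_of_le_one (by norm_num) (by norm_num) hlt'
          rw [pow_succ] at h5
          linarith
        · simp only [if_neg hlt']
          have h5 : role hd x = role h x := le_antisymm (not_lt.1 hlt') (hrole x hx hxs)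
          rw [h5]; simp
      · simp only [if_neg hxs]
        simp
    unfold Yw at h3
    exact h3.trans h4
  have hpt : ∀ x ∈ T, (if x ∈ Hs hd then
      (if role h x < role hd x then (15 / 16) * (3 / 4 : ℝ) ^ role h x
        else (3 / 4 : ℝ) ^ role h x) else 0) ≤ (3 / 4 : ℝ) ^ role h x := by
    intro x _
    have : (0 : ℝ) < (3 / 4 : ℝ) ^ role h x := by positivity
    split_ifs <;> linarith
  have heq := (sum_eq_sum_iff_of_le hpt).1 (le_antisymm (sum_le_sum hpt) hkey)
  have hTHs : T ⊆ Hs hd := by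
    intro x hx
    by_contra hxs
    have := heq x hx
    rw [if_neg hxs] at this
    have h1 : (0 : ℝ) < (3 / 4 : ℝ) ^ role h x := by positivity
    linarith
  have hroles : ∀ x ∈ T, role hd x = role h x := by
    intro x hx
    have h1 := heq x hx
    rw [if_pos (hTHs hx)] at h1
    have h2 : (0 : ℝ) < (3 / 4 : ℝ) ^ role h x := by positivity
    by_contra hne
    have h3 : role h x < role hd x := lt_of_le_of_ne (hrole x hx (hTHs hx)) (Ne.symm hne)
    rw [if_pos h3] at h1
    linarith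
  refine ⟨hTHs, hroles, ?_, ?_⟩
  · intro x hx
    rw [mem_res]
    refine ⟨hTHs hx, ?_⟩
    rw [hroles x hx]
    have := hL'T x hx
    omega
  · have h0 : Yw role hd (res Hs role D1 hd L' (s + 1)) ≤
        bnd (s + 1) (s + 1) + (Vex Hs role D1 (s + 1) hd L' : ℝ) :=
      (Vex_le_iff (NNReal.coe_nonneg _)).1 le_rfl (s + 1) (by rw [mem_Icc]; omega)
    unfold bnd at h0
    linarith

/-- one stage, going from level `s + 1` down to level `s`; `h0` is the original copy -/
theorem stage_step [Fintype ι] {role : ι → α → ℕ} {D1 : ℕ} {s : ℕ}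
    (hs : s < D1) {L : α → ℕ} {h0 h1 : ι}
    (hsub : res Hs role D1 h1 L (s + 1) ⊆ Hs h0)
    (hrl : ∀ x ∈ res Hs role D1 h1 L (s + 1), role h0 x ≤ role h1 x)
    (hb : ∀ i ∈ Finset.Icc (s + 1) D1, Yw role h1 (res Hs role D1 h1 L i) ≤ bnd (s + 1) i)
    (hno : ∀ h, Out Hs role D1 s L h → res Hs role D1 h L s ⊆ Hs h0 →
      ¬ ∀ x ∈ res Hs role D1 h L s, role h0 x ≤ role h x) :
    ∃ h', res Hs role D1 h' L s ⊆ Hs h0 ∧
      (∀ x ∈ res Hs role D1 h' L s, role h0 x ≤ role h' x) ∧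
      ¬ IsBad role s h' (res Hs role D1 h' L s) ∧
      ∀ i ∈ Finset.Icc (s + 1) D1,
        Yw role h' (res Hs role D1 h' L i) ≤ bnd (s + 1) i + 32 * (3 / 2 : ℝ) ^ (s + 1) := by
  classical
  set P : ι → Prop := fun h'' => res Hs role D1 h'' L s ⊆ Hs h0 ∧
    ∀ x ∈ res Hs role D1 h'' L s, role h0 x ≤ role h'' x with hP
  have hP1 : P h1 := by
    refine ⟨(res_mono role D1 h1 L (Nat.le_succ s)).trans hsub, ?_⟩
    intro x hx
    exact hrl x (res_mono role D1 h1 L (Nat.le_succ s) hx)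
  obtain ⟨h', hh', hmin⟩ := ((univ : Finset ι).filter P).exists_min_image
    (fun h'' => Phi Hs role D1 s h'' L) ⟨h1, by rw [mem_filter]; exact ⟨mem_univ _, hP1⟩⟩
  have hV0 : (Vex Hs role D1 (s + 1) h1 L : ℝ) ≤ 0 := by
    rw [Vex_le_iff le_rfl]
    intro i hi
    have := hb i hi
    linarith
  have hPhi0 : Phi Hs role D1 s h1 L ≤ 8 * (3 / 2 : ℝ) ^ (s + 1) := by
    unfold Phi
    have h1' := Yw_mono role h1 (res_mono (Hs := Hs) role D1 h1 L (Nat.le_succ s))
    have h2 := hb (s + 1) (by rw [mem_Icc]; omega)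
    unfold bnd at h2
    simp only [Nat.succ_eq_add_one] at h1'
    linarith
  have hPhi : Phi Hs role D1 s h' L ≤ 8 * (3 / 2 : ℝ) ^ (s + 1) :=
    (hmin h1 (by rw [mem_filter]; exact ⟨mem_univ _, hP1⟩)).trans hPhi0
  have hVle : (Vex Hs role D1 (s + 1) h' L : ℝ) ≤ 32 * (3 / 2 : ℝ) ^ (s + 1) := by
    unfold Phi at hPhi
    have := Yw_nonneg role h' (res Hs role D1 h' L s)
    linarith
  rw [mem_filter] at hh'
  obtain ⟨-, hP', hP''⟩ := hh'
  refine ⟨h', hP', hP'', ?_, ?_⟩
  · intro hbad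
    refine hno h' ⟨hbad, hVle, ?_⟩ hP' hP''
    intro h'' g1 g2
    refine hmin h'' ?_
    rw [mem_filter]
    refine ⟨mem_univ _, g1.trans hP', ?_⟩
    intro x hx
    exact (hP'' x (g1 hx)).trans (g2 x hx)
  · exact (Vex_le_iff (by positivity)).1 hVle

/-- the descending induction -/
theorem stage_descend [Fintype ι] {role : ι → α → ℕ} {D1 : ℕ}
    (hD1 : 0 < D1) {L : α → ℕ} {h0 : ι}
    (hY : Yw role h0 (Hs h0) ≤ 8 * (3 / 2 : ℝ) ^ D1)
    (hno : ∀ s < D1, ∀ h, Out Hs role D1 s L h → res Hs role D1 h L s ⊆ Hs h0 →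
      ¬ ∀ x ∈ res Hs role D1 h L s, role h0 x ≤ role h x) :
    ∃ h1, res Hs role D1 h1 L 0 = ∅ ∧
      ∀ i ∈ Finset.Icc 1 D1, Yw role h1 (res Hs role D1 h1 L i) ≤ 104 * (3 / 2 : ℝ) ^ i := by
  -- the descending claim
  have key : ∀ d, d + 1 ≤ D1 → ∃ h1, res Hs role D1 h1 L (D1 - d) ⊆ Hs h0 ∧
      (∀ x ∈ res Hs role D1 h1 L (D1 - d), role h0 x ≤ role h1 x) ∧
      ∀ i ∈ Finset.Icc (D1 - d) D1, Yw role h1 (res Hs role D1 h1 L i) ≤ bnd (D1 - d) i := by
    intro d
    induction d with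
    | zero =>
      intro _
      refine ⟨h0, ?_, fun x _ => le_rfl, ?_⟩
      · exact filter_subset _ _
      · intro i hi
        rw [mem_Icc] at hi
        have hi' : i = D1 := by omega
        subst hi'
        refine (Yw_mono role h0 (filter_subset _ _)).trans (hY.trans ?_)
        unfold bnd
        simp only [Nat.sub_zero]
        linarith
    | succ d ih =>
      intro hd
      obtain ⟨h1, g1, g2, g3⟩ := ih (by omega)
      obtain ⟨s, hs⟩ : ∃ s, D1 - d = s + 1 := ⟨D1 - d - 1, by omega⟩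
      have hs' : D1 - (d + 1) = s := by omega
      rw [hs] at g1 g2 g3
      rw [hs']
      obtain ⟨h', k1, k2, k3, k4⟩ := stage_step (by omega : s < D1) g1 g2 g3 (hno s (by omega))
      refine ⟨h', k1, k2, ?_⟩
      intro i hi
      rw [mem_Icc] at hi
      rcases Nat.eq_or_lt_of_le hi.1 with h | h
      · subst h
        have hg3 : ¬ (0 < s ∧ 8 * (3 / 2 : ℝ) ^ s < Yw role h' (res Hs role D1 h' L s)) :=
          fun h => k3 (Or.inr h)
        have : Yw role h' (res Hs role D1 h' L s) ≤ 8 * (3 / 2 : ℝ) ^ s := by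
          by_contra hcon
          exact hg3 ⟨by omega, not_le.1 hcon⟩
        unfold bnd
        linarith
      · have := k4 i (by rw [mem_Icc]; omega)
        unfold bnd at this ⊢
        rw [pow_succ] at this
        linarith
  obtain ⟨h1, g1, g2, g3⟩ := key (D1 - 1) (by omega)
  have hs : D1 - (D1 - 1) = 0 + 1 := by omega
  rw [hs] at g1 g2 g3
  obtain ⟨h', k1, k2, k3, k4⟩ := stage_step hD1 g1 g2 g3 (hno 0 hD1)
  refine ⟨h', ?_, ?_⟩
  · by_contra hne
    exact k3 (Or.inl ⟨rfl, nonempty_iff_ne_empty.2 hne⟩)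
  · intro i hi
    have := k4 i hi
    unfold bnd at this
    norm_num at this ⊢
    linarith

end Decode

end Vale.Agent.P064
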