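import Vale.Agent.Lib.P064.GraphDefs

namespace Vale.Agent.P064

open Finset

/-- the possible edges on the vertex set `V` -/
abbrev Edge (V : Type*) := {e : Sym2 V // ¬ e.IsDiag}

/-- the map on edges induced by an injection of the vertex sets -/
def emap {V W : Type*} (φ : V ↪ W) : Edge V ↪ Edge W where
  toFun e := ⟨e.1.map φ, by
    rcases e with ⟨e, he⟩
    induction e using Sym2.ind with
    | _ a b =>
      simp only [Sym2.map_mk, Sym2.mk_isDiag_iff] at he ⊢
      exact fun h => he (φ.injective h)⟩
  inj' := by
    intro a b h
    have := congrArg Subtype.val h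
    exact Subtype.ext (Sym2.map.injective φ.injective this)

open Classical in
/-- the edges of `H` as a finite set of possible edges -/
noncomputable def edgeF {V : Type*} [Fintype V] (H : SimpleGraph V) : Finset (Edge V) :=
  (univ : Finset (Edge V)).filter fun e => e.1 ∈ H.edgeSet

theorem mem_edgeF {V : Type*} [Fintype V] {H : SimpleGraph V} {e : Edge V} :
    e ∈ edgeF H ↔ e.1 ∈ H.edgeSet := by
  simp [edgeF]

end Vale.Agent.P064
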