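import Mathlib

/-!
# Definitions for P064 (the second Kahn–Kalai conjecture)
-/

namespace Vale.Agent.P064

/-- the probability of the graph `G` in the binomial random graph `G(n,p)` -/
noncomputable def gw (n : ℕ) (p : ℝ) (G : SimpleGraph (Fin n)) : ℝ :=
  p ^ (Nat.card G.edgeSet) * (1 - p) ^ (n.choose 2 - Nat.card G.edgeSet)

open Classical in
/-- the probability that `G(n,p)` contains a copy of `H` -/
noncomputable def probCopy (n : ℕ) (p : ℝ) {V : Type} (H : SimpleGraph V) : ℝ :=
  ∑ G : SimpleGraph (Fin n), if 0 < G.copyCount H then gw n p G else 0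

/-- the expected number of copies of `F` in `G(n,p)` -/
noncomputable def expCopy (n : ℕ) (p : ℝ) {V : Type} (F : SimpleGraph V) : ℝ :=
  ∑ G : SimpleGraph (Fin n), gw n p G * (G.copyCount F : ℝ)

/-- the `p` in `[0,1]` for which `G(n,p)` contains a copy of `H` with probability `≥ 1/2` -/
def pcSet (n : ℕ) {V : Type} (H : SimpleGraph V) : Set ℝ :=
  {p | 0 ≤ p ∧ p ≤ 1 ∧ 1 / 2 ≤ probCopy n p H}

/-- the `p` in `[0,1]` for which every subgraph of `H` has expected number of copies `≥ 1/2` -/
def pESet (n : ℕ) {V : Type} (H : SimpleGraph V) : Set ℝ :=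
  {p | 0 ≤ p ∧ p ≤ 1 ∧ ∀ F : H.Subgraph, 1 / 2 ≤ expCopy n p F.coe}

/-- the containment threshold `p_c(n,H)` -/
noncomputable def pc (n : ℕ) {V : Type} (H : SimpleGraph V) : ℝ := sInf (pcSet n H)

/-- the expectation threshold `p_E(n,H)` -/
noncomputable def pE (n : ℕ) {V : Type} (H : SimpleGraph V) : ℝ := sInf (pESet n H)

end Vale.Agent.P064
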