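import Mathlib

/-! Label weights and stage costs. -/

set_option linter.unusedSectionVars false
set_option linter.unusedVariables false

namespace Vale.Agent.P064

open Finset

/-- growth of the label weights -/
noncomputable def gam (D n : ℕ) : ℝ := if D ≤ n then (16 : ℝ) ^ (n - D) else (4 / 9 : ℝ) ^ (D - n)

/-- discount factors -/
noncomputable def disc (D n : ℕ) : ℝ := (1 / 32 : ℝ) ^ (n - D)

/-- stage weight of an element of role `k` -/
noncomputable def bw (s k : ℕ) : ℝ :=
  (1 / 1024) * (if s ≤ k + 1 then (1 / 4 : ℝ) ^ (k + 1 - s) else (3 / 2 : ℝ) ^ (s - (k + 1)))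

theorem gam_pos (D n : ℕ) : 0 < gam D n := by
  unfold gam
  split_ifs <;> positivity

theorem disc_pos (D n : ℕ) : 0 < disc D n := by
  unfold disc
  positivity

/-- label weights: geometric growth up to a top label carrying the rest -/
theorem exists_law (c : ℝ) (hc : 0 < c) (D : ℕ) :
    ∃ (N : ℕ) (μ : ℕ → ℝ), (∀ n, 0 ≤ μ n) ∧ ∑ n ∈ range (N + 1), μ n = 1 ∧
      (∀ n < N, μ n = c * gam D n) ∧ (∀ n ≤ N, μ n ≤ c * gam D n) := by
  set a : ℕ → ℝ := fun n => c * gam D n with ha
  have hapos : ∀ n, 0 < a n := fun n => mul_pos hc (gam_pos D n)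
  have hex : ∃ N, 1 ≤ ∑ n ∈ range (N + 1), a n := by
    have h1 : (1 : ℝ) < 16 := by norm_num
    obtain ⟨n, hn⟩ := pow_unbounded_of_one_lt (1 / c) h1
    refine ⟨D + n, ?_⟩
    have h2 : (1 : ℝ) ≤ a (D + n) := by
      have h3 : a (D + n) = c * 16 ^ n := by
        simp only [ha, gam]
        rw [if_pos (Nat.le_add_right D n), Nat.add_sub_cancel_left]
      rw [h3]
      have h5 := mul_lt_mul_of_pos_left hn hc
      rw [mul_one_div_cancel hc.ne'] at h5
      exact h5.le
    exact h2.trans (single_le_sum (fun i _ => (hapos i).le) (by rw [mem_range]; omega))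
  classical
  set N := Nat.find hex with hN
  have hN1 : 1 ≤ ∑ n ∈ range (N + 1), a n := Nat.find_spec hex
  have hN2 : ∑ n ∈ range N, a n ≤ 1 := by
    rcases Nat.eq_zero_or_pos N with h | h
    · rw [h]; simp
    · have := Nat.find_min hex (m := N - 1) (by omega)
      rw [not_le] at this
      have h2 : N - 1 + 1 = N := by omega
      rw [h2] at this
      exact this.le
  refine ⟨N, fun n => if n < N then a n else if n = N then 1 - ∑ n ∈ range N, a n else 0,
    ?_, ?_, ?_, ?_⟩
  · intro n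
    beta_reduce
    split_ifs
    · exact (hapos n).le
    · linarith
    · exact le_rfl
  · rw [sum_range_succ]
    have h1 : ∀ n ∈ range N, (if n < N then a n else
        if n = N then 1 - ∑ n ∈ range N, a n else 0) = a n := by
      intro n hn
      rw [mem_range] at hn
      rw [if_pos hn]
    rw [sum_congr rfl h1, if_neg (lt_irrefl N), if_pos rfl]
    ring
  · intro n hn
    beta_reduce
    rw [if_pos hn]
  · intro n hn
    beta_reduce
    rcases Nat.lt_or_eq_of_le hn with h | h
    · rw [if_pos h]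
    · subst h
      rw [if_neg (lt_irrefl _), if_pos rfl]
      rw [sum_range_succ] at hN1
      have : a N = c * gam D N := rfl
      linarith

theorem disc_sum (D M : ℕ) : ∑ n ∈ range M, gam D n * disc D n ≤ 3 := by
  have key : (M ≤ D → ∑ n ∈ range M, gam D n * disc D n ≤ (4 / 5) * (4 / 9 : ℝ) ^ (D - M)) ∧
      (D ≤ M → ∑ n ∈ range M, gam D n * disc D n ≤ 14 / 5 - 2 * (1 / 2 : ℝ) ^ (M - D)) := by
    induction M with
    | zero =>
      refine ⟨fun _ => ?_, fun h => ?_⟩
      · simp only [range_zero, sum_empty]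
        positivity
      · have hD : D = 0 := by omega
        subst hD
        simp
        norm_num
    | succ M ih =>
      have hlow : M + 1 ≤ D → ∑ n ∈ range (M + 1), gam D n * disc D n
          ≤ (4 / 5) * (4 / 9 : ℝ) ^ (D - (M + 1)) := by
        intro h
        have h1 := ih.1 (by omega)
        have h2 : gam D M * disc D M = (4 / 9 : ℝ) ^ (D - M) := by
          unfold gam disc
          rw [if_neg (by omega), show M - D = 0 by omega, pow_zero, mul_one]
        have h3 : (4 / 9 : ℝ) ^ (D - M) = (4 / 9) * (4 / 9 : ℝ) ^ (D - (M + 1)) := by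
          rw [← pow_succ']
          congr 1
          omega
        rw [sum_range_succ, h2]
        rw [h3] at h1 ⊢
        linarith
      refine ⟨hlow, fun h => ?_⟩
      rcases Nat.lt_or_ge M D with hlt | hge
      · have hD : D = M + 1 := by omega
        have h1 := hlow (by omega)
        subst hD
        rw [Nat.sub_self, pow_zero] at h1 ⊢
        linarith
      · have h1 := ih.2 hge
        have h2 : gam D M * disc D M = (1 / 2 : ℝ) ^ (M - D) := by
          unfold gam disc
          rw [if_pos hge, ← mul_pow]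
          norm_num
        have h3 : (1 / 2 : ℝ) ^ (M + 1 - D) = (1 / 2) * (1 / 2 : ℝ) ^ (M - D) := by
          rw [← pow_succ']
          congr 1
          omega
        rw [sum_range_succ, h2, h3]
        linarith
  rcases Nat.le_total M D with h | h
  · refine (key.1 h).trans ?_
    have : (4 / 9 : ℝ) ^ (D - M) ≤ 1 := pow_le_one₀ (by norm_num) (by norm_num)
    linarith
  · refine (key.2 h).trans ?_
    have : (0 : ℝ) < (1 / 2 : ℝ) ^ (M - D) := by positivity
    linarith

theorem bw_pos (s k : ℕ) : 0 < bw s k := by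
  unfold bw
  split_ifs <;> positivity

theorem bw_nonneg (s k : ℕ) : 0 ≤ bw s k := (bw_pos s k).le

theorem bw_succ_le (s k : ℕ) : bw s (k + 1) ≤ bw s k := by
  unfold bw
  by_cases h : s ≤ k + 1
  · rw [if_pos (by omega), if_pos h]
    refine mul_le_mul_of_nonneg_left ?_ (by norm_num)
    exact pow_le_pow_of_le_one (by norm_num) (by norm_num) (by omega)
  · rw [if_neg h]
    refine mul_le_mul_of_nonneg_left ?_ (by norm_num)
    split_ifs
    · exact (pow_le_one₀ (by norm_num) (by norm_num)).trans (one_le_pow₀ (by norm_num))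
    · exact pow_le_pow_right₀ (by norm_num) (by omega)

theorem bw_anti {s k k' : ℕ} (h : k ≤ k') : bw s k' ≤ bw s k :=
  antitone_nat_of_succ_le (fun n => bw_succ_le s n) h

theorem gam_bw {D s k n : ℕ} (h : n + s = k + (D + 1)) (c q : ℝ) :
    q = (1048576 * q) * gam D n * (bw s k) ^ 2 := by
  unfold gam bw
  by_cases hs : s ≤ k + 1
  · rw [if_pos hs, if_pos (by omega : D ≤ n), show n - D = k + 1 - s by omega, mul_pow,
      ← pow_mul, mul_comm (k + 1 - s) 2, pow_mul]
    have h1 : (16 : ℝ) ^ (k + 1 - s) * ((1 / 4 : ℝ) ^ 2) ^ (k + 1 - s) = 1 := by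
      rw [← mul_pow]
      norm_num
    linear_combination (-q) * h1
  · rw [if_neg hs, if_neg (by omega : ¬ D ≤ n), show D - n = s - (k + 1) by omega, mul_pow,
      ← pow_mul, mul_comm (s - (k + 1)) 2, pow_mul]
    have h1 : (4 / 9 : ℝ) ^ (s - (k + 1)) * ((3 / 2 : ℝ) ^ 2) ^ (s - (k + 1)) = 1 := by
      rw [← mul_pow]
      norm_num
    linear_combination (-q) * h1

/-- the weighted number of elements of each role -/
theorem sum_pow_bw (s M : ℕ) : ∑ k ∈ range M, 2 ^ k * bw s k ≤ (1 / 400) * 2 ^ s := by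
  have key : (M + 1 ≤ s → ∑ k ∈ range M, 2 ^ k * bw s k
        ≤ (3 / 1024) * 2 ^ M * (3 / 2 : ℝ) ^ (s - (M + 1))) ∧
      (s ≤ M + 1 → ∑ k ∈ range M, 2 ^ k * bw s k
        ≤ (5 / 2048) * 2 ^ s - (1 / 512) * 2 ^ M * (1 / 4 : ℝ) ^ (M + 1 - s)) := by
    induction M with
    | zero =>
      refine ⟨fun _ => ?_, fun h => ?_⟩
      · simp only [range_zero, sum_empty]
        positivity
      · have hs : s = 0 ∨ s = 1 := by omega
        rcases hs with hs | hs <;> subst hs <;> norm_num
    | succ M ih =>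
      refine ⟨fun h => ?_, fun h => ?_⟩
      · have h1 := ih.1 (by omega)
        have h2 : bw s M = (1 / 1024) * (3 / 2 : ℝ) ^ (s - (M + 1)) := by
          unfold bw
          rw [if_neg (by omega)]
        have h3 : (3 / 2 : ℝ) ^ (s - (M + 1)) = (3 / 2) * (3 / 2 : ℝ) ^ (s - (M + 1 + 1)) := by
          rw [← pow_succ']
          congr 1
          omega
        rw [sum_range_succ, h2]
        rw [h3] at h1 ⊢
        rw [pow_succ]
        refine (add_le_add_left h1 _).trans (le_of_eq ?_)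
        ring
      · rcases Nat.lt_or_ge (M + 1) s with hlt | hge
        · have hs : s = M + 2 := by omega
          subst hs
          have h1 := ih.1 (by omega)
          have h2 : bw (M + 2) M = (1 / 1024) * (3 / 2 : ℝ) := by
            unfold bw
            rw [if_neg (by omega), show M + 2 - (M + 1) = 1 by omega, pow_one]
          rw [show M + 2 - (M + 1) = 1 by omega, pow_one] at h1
          rw [sum_range_succ, h2, show M + 1 + 1 - (M + 2) = 0 by omega, pow_zero]
          refine (add_le_add_left h1 _).trans (le_of_eq ?_)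
          ring
        · have h1 := ih.2 hge
          have h2 : bw s M = (1 / 1024) * (1 / 4 : ℝ) ^ (M + 1 - s) := by
            unfold bw
            rw [if_pos hge]
          have h3 : (1 / 4 : ℝ) ^ (M + 1 + 1 - s) = (1 / 4) * (1 / 4 : ℝ) ^ (M + 1 - s) := by
            rw [← pow_succ']
            congr 1
            omega
          rw [sum_range_succ, h2, h3, pow_succ]
          refine (add_le_add_left h1 _).trans (le_of_eq ?_)
          ring
  have h2 : (0 : ℝ) < 2 ^ s := by positivity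
  rcases Nat.le_total (M + 1) s with h | h
  · refine (key.1 h).trans ?_
    have h3 : (2 : ℝ) ^ s = 2 * 2 ^ M * 2 ^ (s - (M + 1)) := by
      rw [← pow_succ', ← pow_add]
      congr 1
      omega
    have h4 : (3 / 2 : ℝ) ^ (s - (M + 1)) ≤ 2 ^ (s - (M + 1)) :=
      pow_le_pow_left₀ (by norm_num) (by norm_num) _
    have h5 : (0 : ℝ) < 2 ^ M := by positivity
    rw [h3]
    have h6 := mul_le_mul_of_nonneg_left h4 h5.le
    nlinarith
  · refine (key.2 h).trans ?_
    have h3 : (0 : ℝ) < (1 / 512) * 2 ^ M * (1 / 4 : ℝ) ^ (M + 1 - s) := by positivity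
    linarith

section costs

variable {α : Type*} [DecidableEq α]

theorem sum_bw (R : Finset α) (r : α → ℕ)
    (hcount : ∀ k, ((R.filter fun x => r x = k).card : ℝ) ≤ 2 ^ k) (s : ℕ) :
    ∑ x ∈ R, bw s (r x) ≤ (1 / 400) * 2 ^ s := by
  have h1 : ∑ x ∈ R, bw s (r x)
      = ∑ k ∈ range (R.sup r + 1), ∑ x ∈ R.filter (fun x => r x = k), bw s (r x) := by
    rw [sum_fiberwise_of_maps_to]
    intro x hx
    rw [mem_range]
    exact Nat.lt_succ_of_le (Finset.le_sup hx)
  rw [h1]
  refine le_trans (sum_le_sum fun k _ => ?_) (sum_pow_bw s (R.sup r + 1))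
  have h4 : ∑ x ∈ R.filter (fun x => r x = k), bw s (r x)
      = ∑ x ∈ R.filter (fun x => r x = k), bw s k := by
    refine sum_congr rfl fun x hx => ?_
    rw [mem_filter] at hx; rw [hx.2]
  rw [h4, sum_const, nsmul_eq_mul]
  exact mul_le_mul_of_nonneg_right (hcount k) (bw_nonneg s k)

theorem prod_bw (R : Finset α) (r : α → ℕ)
    (hcount : ∀ k, ((R.filter fun x => r x = k).card : ℝ) ≤ 2 ^ k) (s : ℕ) :
    ∏ x ∈ R, (1 + bw s (r x)) ≤ Real.exp ((1 / 400) * 2 ^ s) := by
  refine le_trans ?_ (Real.exp_le_exp.2 (sum_bw R r hcount s))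
  rw [Real.exp_sum]
  refine prod_le_prod (fun x _ => ?_) fun x _ => ?_
  · have := bw_nonneg s (r x)
    linarith
  · have := Real.add_one_le_exp (bw s (r x))
    linarith

/-- low roles contribute little -/
theorem sum_low (R : Finset α) (r : α → ℕ)
    (hcount : ∀ k, ((R.filter fun x => r x = k).card : ℝ) ≤ 2 ^ k) (s : ℕ) :
    ∑ x ∈ R.filter (fun x => r x < s), (3 / 4 : ℝ) ^ (r x) ≤ 2 * (3 / 2 : ℝ) ^ s := by
  have h1 : ∑ x ∈ R.filter (fun x => r x < s), (3 / 4 : ℝ) ^ (r x)
      = ∑ k ∈ range s, ∑ x ∈ (R.filter (fun x => r x < s)).filter (fun x => r x = k),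
          (3 / 4 : ℝ) ^ (r x) := by
    rw [sum_fiberwise_of_maps_to]
    intro x hx
    rw [mem_filter] at hx
    rw [mem_range]; exact hx.2
  rw [h1]
  have h2 : ∀ k ∈ range s,
      ∑ x ∈ (R.filter (fun x => r x < s)).filter (fun x => r x = k), (3 / 4 : ℝ) ^ (r x)
        ≤ (3 / 2 : ℝ) ^ k := by
    intro k hk
    rw [mem_range] at hk
    have h3 : (R.filter (fun x => r x < s)).filter (fun x => r x = k)
        = R.filter (fun x => r x = k) := by
      ext x
      simp only [mem_filter]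
      constructor
      · rintro ⟨⟨a, _⟩, c⟩; exact ⟨a, c⟩
      · rintro ⟨a, c⟩; exact ⟨⟨a, by omega⟩, c⟩
    rw [h3]
    have h4 : ∑ x ∈ R.filter (fun x => r x = k), (3 / 4 : ℝ) ^ (r x)
        = ∑ x ∈ R.filter (fun x => r x = k), (3 / 4 : ℝ) ^ k := by
      refine sum_congr rfl fun x hx => ?_
      rw [mem_filter] at hx; rw [hx.2]
    rw [h4, sum_const, nsmul_eq_mul]
    calc ((R.filter fun x => r x = k).card : ℝ) * (3 / 4 : ℝ) ^ k
        ≤ 2 ^ k * (3 / 4 : ℝ) ^ k :=
          mul_le_mul_of_nonneg_right (hcount k) (by positivity)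
      _ = (3 / 2 : ℝ) ^ k := by rw [← mul_pow]; norm_num
  refine (sum_le_sum h2).trans ?_
  rw [geom_sum_eq (by norm_num)]
  have : (0 : ℝ) < (3 / 2 : ℝ) ^ s := by positivity
  rw [div_le_iff₀ (by norm_num)]
  linarith

theorem bad_sum (R : Finset α) (r : α → ℕ)
    (hcount : ∀ k, ((R.filter fun x => r x = k).card : ℝ) ≤ 2 ^ k) {s : ℕ} (hs : 0 < s) :
    ∑ T ∈ R.powerset.filter (fun T => 8 * (3 / 2 : ℝ) ^ s < ∑ x ∈ T, (3 / 4 : ℝ) ^ (r x)),
      ∏ x ∈ T, bw s (r x) ≤ Real.exp (-(5 * 2 ^ s)) := by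
  set u : α → ℝ := fun x => if r x < s then 0 else (3 / 4 : ℝ) ^ (r x) / (3 / 4 : ℝ) ^ s with hu
  have hρ : (0 : ℝ) < (3 / 4 : ℝ) ^ s := by positivity
  have hu0 : ∀ x, 0 ≤ u x := fun x => by
    simp only [hu]
    split_ifs <;> positivity
  have hu1 : ∀ x, u x ≤ 1 := fun x => by
    simp only [hu]
    split_ifs with h
    · exact zero_le_one
    · rw [div_le_one hρ]
      exact pow_le_pow_of_le_one (by norm_num) (by norm_num) (not_lt.1 h)
  have h2s : (3 / 2 : ℝ) ^ s / (3 / 4 : ℝ) ^ s = 2 ^ s := by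
    rw [← div_pow]; norm_num
  -- step 1
  have h1 : ∑ T ∈ R.powerset.filter
        (fun T => 8 * (3 / 2 : ℝ) ^ s < ∑ x ∈ T, (3 / 4 : ℝ) ^ (r x)),
      ∏ x ∈ T, bw s (r x)
      ≤ ∑ T ∈ R.powerset, Real.exp (-(6 * 2 ^ s)) * ∏ x ∈ T, (bw s (r x) * Real.exp (u x)) := by
    refine (sum_le_sum (g := fun T => Real.exp (-(6 * 2 ^ s)) *
      ∏ x ∈ T, (bw s (r x) * Real.exp (u x))) ?_).trans ?_
    · intro T hT
      rw [mem_filter, mem_powerset] at hT
      rw [prod_mul_distrib, ← Real.exp_sum]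
      have h3 : (6 : ℝ) * 2 ^ s ≤ ∑ x ∈ T, u x := by
        have h4 : ∑ x ∈ T, u x
            = (∑ x ∈ T.filter (fun x => ¬ r x < s), (3 / 4 : ℝ) ^ (r x)) / (3 / 4 : ℝ) ^ s := by
          rw [sum_div, sum_filter]
          refine sum_congr rfl fun x _ => ?_
          simp only [hu]
          by_cases h : r x < s
          · rw [if_pos h, if_neg (by simpa using h)]
          · rw [if_neg h, if_pos h]
        have h5 : ∑ x ∈ T.filter (fun x => r x < s), (3 / 4 : ℝ) ^ (r x)
            ≤ 2 * (3 / 2 : ℝ) ^ s := by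
          refine le_trans ?_ (sum_low R r hcount s)
          refine sum_le_sum_of_subset_of_nonneg (filter_subset_filter _ hT.1) fun _ _ _ => ?_
          positivity
        have h6 := sum_filter_add_sum_filter_not T (fun x => r x < s)
          (fun x => (3 / 4 : ℝ) ^ (r x))
        rw [h4, le_div_iff₀ hρ]
        have h7 : (6 : ℝ) * 2 ^ s * (3 / 4 : ℝ) ^ s = 6 * (3 / 2 : ℝ) ^ s := by
          rw [← h2s]; field_simp
        rw [h7]
        linarith [hT.2]
      have h5 : (1 : ℝ) ≤ Real.exp (-(6 * 2 ^ s)) * Real.exp (∑ x ∈ T, u x) := by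
        rw [← Real.exp_add]
        exact Real.one_le_exp (by linarith)
      have h6 : 0 ≤ ∏ x ∈ T, bw s (r x) := prod_nonneg fun x _ => bw_nonneg s (r x)
      calc ∏ x ∈ T, bw s (r x) = (∏ x ∈ T, bw s (r x)) * 1 := by ring
        _ ≤ (∏ x ∈ T, bw s (r x)) * (Real.exp (-(6 * 2 ^ s)) * Real.exp (∑ x ∈ T, u x)) :=
            mul_le_mul_of_nonneg_left h5 h6
        _ = _ := by ring
    · refine sum_le_sum_of_subset_of_nonneg (filter_subset _ _) fun T _ _ => ?_
      refine mul_nonneg (Real.exp_pos _).le (prod_nonneg fun x _ => ?_)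
      exact mul_nonneg (bw_nonneg s (r x)) (Real.exp_pos _).le
  refine h1.trans ?_
  rw [← mul_sum, ← prod_one_add]
  have h2 : ∏ x ∈ R, (1 + bw s (r x) * Real.exp (u x))
      ≤ ∏ x ∈ R, Real.exp (3 * bw s (r x)) := by
    refine prod_le_prod (fun x _ => ?_) fun x _ => ?_
    · have := mul_nonneg (bw_nonneg s (r x)) (Real.exp_pos (u x)).le
      linarith
    · have h3 : Real.exp (u x) ≤ 3 := by
        have h2 : Real.exp (u x) ≤ Real.exp 1 := Real.exp_le_exp.2 (hu1 x)
        have h3 := Real.exp_one_lt_d9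
        linarith
      have h4 := mul_le_mul_of_nonneg_left h3 (bw_nonneg s (r x))
      have h5 := Real.add_one_le_exp (3 * bw s (r x))
      linarith
  have h3 : ∏ x ∈ R, Real.exp (3 * bw s (r x)) ≤ Real.exp (3 * ((1 / 400) * 2 ^ s)) := by
    rw [← Real.exp_sum, ← mul_sum]
    refine Real.exp_le_exp.2 ?_
    have := sum_bw R r hcount s
    linarith
  calc Real.exp (-(6 * 2 ^ s)) * ∏ x ∈ R, (1 + bw s (r x) * Real.exp (u x))
      ≤ Real.exp (-(6 * 2 ^ s)) * Real.exp (3 * ((1 / 400) * 2 ^ s)) :=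
        mul_le_mul_of_nonneg_left (h2.trans h3) (Real.exp_pos _).le
    _ = Real.exp (-(6 * 2 ^ s) + 3 * ((1 / 400) * 2 ^ s)) := by rw [← Real.exp_add]
    _ ≤ Real.exp (-(5 * 2 ^ s)) := by
        refine Real.exp_le_exp.2 ?_
        have : (0 : ℝ) < 2 ^ s := by positivity
        linarith

theorem ne_sum (R : Finset α) (r : α → ℕ)
    (hcount : ∀ k, ((R.filter fun x => r x = k).card : ℝ) ≤ 2 ^ k) :
    ∑ T ∈ R.powerset.filter (fun T => T.Nonempty), ∏ x ∈ T, bw 0 (r x) ≤ 1 / 300 := by
  have h1 : ∑ T ∈ R.powerset, ∏ x ∈ T, bw 0 (r x)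
      = ∑ T ∈ R.powerset.filter (fun T => T.Nonempty), ∏ x ∈ T, bw 0 (r x) + 1 := by
    rw [← sum_filter_add_sum_filter_not R.powerset (fun T : Finset α => T.Nonempty)]
    congr 1
    have : R.powerset.filter (fun T => ¬ T.Nonempty) = {∅} := by
      ext T
      simp only [mem_filter, mem_powerset, not_nonempty_iff_eq_empty, mem_singleton]
      constructor
      · rintro ⟨_, h⟩; exact h
      · rintro rfl; exact ⟨empty_subset _, rfl⟩
    rw [this]; simp
  have h2 := prod_bw R r hcount 0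
  rw [pow_zero, mul_one] at h2
  have h5 : Real.exp (1 / 400) ≤ 301 / 300 := by
    have h6 : 1 - (1 / 400 : ℝ) ≤ Real.exp (-(1 / 400)) := by
      have := Real.add_one_le_exp (-(1 / 400) : ℝ)
      linarith
    rw [Real.exp_neg] at h6
    have h7 : (0 : ℝ) < Real.exp (1 / 400) := Real.exp_pos _
    have h8 := mul_le_mul_of_nonneg_right h6 h7.le
    rw [inv_mul_cancel₀ h7.ne'] at h8
    linarith
  have h9 := prod_one_add (s := R) (f := fun x => bw 0 (r x))
  linarith [h1, h2, h5, h9]

end costs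

end Vale.Agent.P064
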