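import Vale.Agent.Lib.P064.Decode
import Vale.Agent.Lib.P064.Law
import Vale.Agent.Lib.P034.Transfer
import Vale.Agent.Lib.P034.Final

set_option linter.unusedSectionVars false

namespace Vale.Agent.P064

open Finset
open Vale.Agent.P034 (Om Pr mem_Om fiber_sum sum_Pr sum_Pr_prod)

section Multi

variable {α β ι : Type*} [Fintype α] [DecidableEq α] [DecidableEq β]

/-- the copy of `H0` with index `h` -/
def cH (e : ι → β ↪ α) (H0 : Finset β) (h : ι) : Finset α := H0.map (e h)

/-- the transported roles -/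
noncomputable def cr (e : ι → β ↪ α) (r0 : β → ℕ) (h : ι) : α → ℕ :=
  Function.extend (e h) r0 (fun _ => 0)

theorem cr_apply (e : ι → β ↪ α) (r0 : β → ℕ) (h : ι) (y : β) : cr e r0 h (e h y) = r0 y :=
  (e h).injective.extend_apply _ _ _

theorem cr_count (e : ι → β ↪ α) (H0 : Finset β) (r0 : β → ℕ)
    (hcount : ∀ k, ((H0.filter fun x => r0 x = k).card : ℝ) ≤ 2 ^ k) (h : ι) (k : ℕ) :
    (((cH e H0 h).filter fun x => cr e r0 h x = k).card : ℝ) ≤ 2 ^ k := by
  have h1 : (cH e H0 h).filter (fun x => cr e r0 h x = k)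
      = (H0.filter fun x => r0 x = k).map (e h) := by
    ext x
    simp only [cH, mem_filter, mem_map]
    constructor
    · rintro ⟨⟨y, hy, rfl⟩, h2⟩
      rw [cr_apply] at h2
      exact ⟨y, ⟨hy, h2⟩, rfl⟩
    · rintro ⟨y, ⟨hy, h2⟩, rfl⟩
      exact ⟨⟨y, hy, rfl⟩, by rw [cr_apply]; exact h2⟩
  rw [h1, card_map]
  exact hcount k

theorem sum_cr (e : ι → β ↪ α) (r0 : β → ℕ) (h : ι) (S : Finset β) (f : ℕ → ℝ) :
    ∑ x ∈ S.map (e h), f (cr e r0 h x) = ∑ y ∈ S, f (r0 y) := by
  rw [sum_map]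
  exact sum_congr rfl fun y _ => by rw [cr_apply]

theorem prod_cr (e : ι → β ↪ α) (r0 : β → ℕ) (h : ι) (S : Finset β) (f : ℕ → ℝ) :
    ∏ x ∈ S.map (e h), f (cr e r0 h x) = ∏ y ∈ S, f (r0 y) := by
  rw [prod_map]
  exact prod_congr rfl fun y _ => by rw [cr_apply]

open Classical in
/-- the number of copies that contain `T` with roles at most `k` on `T` -/
theorem cond_count [Fintype ι] (e : ι → β ↪ α) (H0 : Finset β) (r0 : β → ℕ) (q : ℝ) (hq : 0 < q)
    (hanti : ∀ T' ⊆ H0, T'.Nonempty → ∀ T : Finset α,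
      (((univ : Finset ι).filter fun h => T'.map (e h) = T).card : ℝ)
        ≤ 2 * q ^ T'.card * Fintype.card ι)
    (s : ℕ) (T : Finset α) (hT : T.Nonempty) (k : α → ℕ) :
    (((univ : Finset ι).filter fun h => T ⊆ cH e H0 h ∧ ∀ x ∈ T, cr e r0 h x ≤ k x).card : ℝ)
        * ∏ x ∈ T, bw s (k x)
      ≤ 2 * q ^ T.card * Fintype.card ι * ∏ y ∈ H0, (1 + bw s (r0 y)) := by
  -- split according to the preimage of `T`
  have h1 : ((univ : Finset ι).filter fun h => T ⊆ cH e H0 h ∧ ∀ x ∈ T, cr e r0 h x ≤ k x)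
      ⊆ H0.powerset.biUnion fun T' => (univ : Finset ι).filter fun h => T'.map (e h) = T ∧
        ∀ x ∈ T, cr e r0 h x ≤ k x := by
    intro h hh
    rw [mem_filter] at hh
    rw [mem_biUnion]
    refine ⟨H0.filter fun y => e h y ∈ T, by rw [mem_powerset]; exact filter_subset _ _, ?_⟩
    rw [mem_filter]
    refine ⟨mem_univ _, ?_, hh.2.2⟩
    ext x
    simp only [mem_map, mem_filter]
    constructor
    · rintro ⟨y, ⟨_, h2⟩, rfl⟩; exact h2
    · intro hx
      have h2 := hh.2.1 hx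
      rw [cH, mem_map] at h2
      obtain ⟨y, hy, rfl⟩ := h2
      exact ⟨y, ⟨hy, hx⟩, rfl⟩
  have h2 : (((univ : Finset ι).filter fun h => T ⊆ cH e H0 h ∧
      ∀ x ∈ T, cr e r0 h x ≤ k x).card : ℝ)
      ≤ ∑ T' ∈ H0.powerset, (((univ : Finset ι).filter fun h => T'.map (e h) = T ∧
        ∀ x ∈ T, cr e r0 h x ≤ k x).card : ℝ) := by
    have := (card_le_card h1).trans card_biUnion_le
    exact_mod_cast this
  have hbw0 : 0 ≤ ∏ x ∈ T, bw s (k x) := prod_nonneg fun x _ => bw_nonneg _ _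
  refine (mul_le_mul_of_nonneg_right h2 hbw0).trans ?_
  rw [sum_mul, prod_one_add, mul_sum]
  refine sum_le_sum fun T' hT' => ?_
  rw [mem_powerset] at hT'
  set A := (univ : Finset ι).filter fun h => T'.map (e h) = T ∧ ∀ x ∈ T, cr e r0 h x ≤ k x with hA
  rcases A.eq_empty_or_nonempty with hA0 | ⟨h, hh⟩
  · rw [hA0, card_empty, Nat.cast_zero, zero_mul]
    exact mul_nonneg (by positivity) (prod_nonneg fun x _ => bw_nonneg _ _)
  · rw [hA, mem_filter] at hh
    obtain ⟨-, hh1, hh2⟩ := hh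
    have hcard : T'.card = T.card := by rw [← hh1, card_map]
    have hne : T'.Nonempty := by
      rw [← hh1, map_nonempty] at hT; exact hT
    have h3 : (A.card : ℝ) ≤ 2 * q ^ T.card * Fintype.card ι := by
      have h4 := hanti T' hT' hne T
      rw [hcard] at h4
      refine le_trans ?_ h4
      exact_mod_cast card_le_card fun h hh => by
        rw [hA, mem_filter] at hh
        rw [mem_filter]
        exact ⟨hh.1, hh.2.1⟩
    have h4 : ∏ x ∈ T, bw s (k x) ≤ ∏ y ∈ T', bw s (r0 y) := by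
      rw [← prod_cr e r0 h T' (fun n => bw s n), hh1]
      exact prod_le_prod (fun x _ => bw_nonneg _ _) fun x hx => bw_anti (hh2 x hx)
    exact mul_le_mul h3 h4 hbw0 (by positivity)

open Classical in
/-- the decoder -/
noncomputable def dec [Nonempty ι] (Hs : ι → Finset α) (role : ι → α → ℕ) (D1 s : ℕ)
    (L : α → ℕ) : ι :=
  if h : ∃ hs, IsDec Hs role D1 s L hs then h.choose else Classical.arbitrary ι

open Classical in
/-- the decoded family of stage `s` -/
noncomputable def Ws [Nonempty ι] (Hs : ι → Finset α) (role : ι → α → ℕ) (D1 N s : ℕ)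
    (L : α → ℕ) : Finset (Finset α) :=
  (Hs (dec Hs role D1 s L)).powerset.filter fun T =>
    IsBad role s (dec Hs role D1 s L) T ∧
      ∀ x ∈ T, L x + s = role (dec Hs role D1 s L) x + D1 ∧ L x < N

/-- the copy `h0` fails at stage `s` -/
def FailAt (Hs : ι → Finset α) (role : ι → α → ℕ) (D1 s : ℕ) (L : α → ℕ) (h0 : ι) : Prop :=
  ∃ h, Out Hs role D1 s L h ∧ res Hs role D1 h L s ⊆ Hs h0 ∧
    ∀ x ∈ res Hs role D1 h L s, role h0 x ≤ role h x

open Classical in
theorem fail_decode [Fintype ι] [Nonempty ι] (Hs : ι → Finset α) (role : ι → α → ℕ)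
    {D1 N s : ℕ} (hs : s < D1) {L : α → ℕ} (hL : L ∈ Om α N) {h0 : ι}
    (hf : FailAt Hs role D1 s L h0) :
    ∃ L' ∈ Om α N, ∃ T ∈ Ws Hs role D1 N s L', (∀ x, x ∉ T → L' x = L x) ∧
      T ⊆ Hs h0 ∧ ∀ x ∈ T, role h0 x ≤ role (dec Hs role D1 s L') x := by
  obtain ⟨h, ⟨hbad, hV, hmin⟩, hsub, hrl⟩ := hf
  set T := res Hs role D1 h L s with hT
  set L' := relabel role D1 s h T L with hL'
  have hL'T : ∀ x ∈ T, L' x + s = role h x + D1 := by
    intro x hx
    simp only [hL', relabel, if_pos hx]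
    omega
  have hL'n : ∀ x, x ∉ T → L' x = L x := by
    intro x hx
    simp only [hL', relabel, if_neg hx]
  have hlt : ∀ x ∈ T, L' x < L x := by
    intro x hx
    have h1 := hL'T x hx
    rw [hT, mem_res] at hx
    omega
  have hL'Om : L' ∈ Om α N := by
    rw [mem_Om]
    intro x
    have h2 := mem_Om.1 hL x
    by_cases hx : x ∈ T
    · have := hlt x hx; omega
    · rw [hL'n x hx]; exact h2
  have hres0 : res Hs role D1 h L' s = ∅ := by
    rw [eq_empty_iff_forall_notMem]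
    intro x hx
    rw [mem_res] at hx
    by_cases hxT : x ∈ T
    · have := hL'T x hxT
      omega
    · rw [hL'n x hxT] at hx
      exact hxT (by rw [hT, mem_res]; exact hx)
  have hex : ∃ hd, IsDec Hs role D1 s L' hd := exists_isDec hres0
  have hdec : IsDec Hs role D1 s L' (dec Hs role D1 s L') := by
    unfold dec
    rw [dif_pos hex]
    exact hex.choose_spec
  obtain ⟨g1, g2, g3, g4⟩ := decode hs hT.symm hV hmin hdec
  refine ⟨L', hL'Om, T, ?_, hL'n, hsub, ?_⟩
  · unfold Ws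
    rw [mem_filter, mem_powerset]
    refine ⟨g1, ?_, ?_⟩
    · rcases hbad with ⟨b1, b2⟩ | ⟨b1, b2⟩
      · exact Or.inl ⟨b1, b2⟩
      · right
        refine ⟨b1, ?_⟩
        have : Yw role (dec Hs role D1 s L') T = Yw role h T := by
          unfold Yw
          exact sum_congr rfl fun x hx => by rw [g2 x hx]
        rw [this]; exact b2
    · intro x hx
      rw [g2 x hx]
      exact ⟨hL'T x hx, lt_of_lt_of_le (hlt x hx) (mem_Om.1 hL x)⟩
  · intro x hx
    rw [g2 x hx]
    exact hrl x hx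

open Classical in
/-- the expected number of copies failing at stage `s` -/
theorem stage_expect [Fintype ι] [Nonempty ι] (e : ι → β ↪ α) (H0 : Finset β) (r0 : β → ℕ)
    (q : ℝ) (hq : 0 < q)
    (hanti : ∀ T' ⊆ H0, T'.Nonempty → ∀ T : Finset α,
      (((univ : Finset ι).filter fun h => T'.map (e h) = T).card : ℝ)
        ≤ 2 * q ^ T'.card * Fintype.card ι)
    (D N : ℕ) (μ : ℕ → ℝ) (hμ : ∀ n, 0 ≤ μ n) (hμ1 : ∑ n ∈ range (N + 1), μ n = 1)
    (hμq : ∀ n < N, μ n = (1048576 * q) * gam D n) (s : ℕ) (hs : s < D + 1) (bd : ℝ)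
    (hbd : ∀ h : ι, ∑ T ∈ (cH e H0 h).powerset.filter (IsBad (cr e r0) s h),
      ∏ x ∈ T, bw s (cr e r0 h x) ≤ bd) :
    ∑ L ∈ Om α N, Pr μ L *
      (((univ : Finset ι).filter fun h0 =>
        FailAt (cH e H0) (cr e r0) (D + 1) s L h0).card : ℝ)
      ≤ 2 * Fintype.card ι * (∏ y ∈ H0, (1 + bw s (r0 y))) * bd := by
  set Hs := cH e H0 with hHs
  set role := cr e r0 with hrole
  have hPr : ∀ L : α → ℕ, 0 ≤ Pr μ L := fun L => prod_nonneg fun x _ => hμ _
  set C : Finset α → (α → ℕ) → Finset ι := fun T L' => (univ : Finset ι).filter fun h0 =>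
    T ⊆ Hs h0 ∧ ∀ x ∈ T, role h0 x ≤ role (dec Hs role (D + 1) s L') x with hC
  -- step 1: decode
  have h1 : ∀ L ∈ Om α N, Pr μ L * (((univ : Finset ι).filter fun h0 =>
        FailAt Hs role (D + 1) s L h0).card : ℝ)
      ≤ ∑ L' ∈ Om α N, ∑ T ∈ Ws Hs role (D + 1) N s L',
        ((C T L').card : ℝ) * (if (∀ x, x ∉ T → L' x = L x) then Pr μ L else 0) := by
    intro L hL
    have h2 : ((univ : Finset ι).filter fun h0 => FailAt Hs role (D + 1) s L h0)
        ⊆ (Om α N).biUnion fun L' => (Ws Hs role (D + 1) N s L').biUnion fun T =>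
          if (∀ x, x ∉ T → L' x = L x) then C T L' else ∅ := by
      intro h0 hh0
      rw [mem_filter] at hh0
      obtain ⟨L', hL', T, hT, g1, g2, g3⟩ := fail_decode Hs role hs hL hh0.2
      rw [mem_biUnion]
      refine ⟨L', hL', ?_⟩
      rw [mem_biUnion]
      refine ⟨T, hT, ?_⟩
      rw [if_pos g1, hC, mem_filter]
      exact ⟨mem_univ _, g2, g3⟩
    have h3 : (((univ : Finset ι).filter fun h0 => FailAt Hs role (D + 1) s L h0).card : ℝ)
        ≤ ∑ L' ∈ Om α N, ∑ T ∈ Ws Hs role (D + 1) N s L',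
          (((if (∀ x, x ∉ T → L' x = L x) then C T L' else ∅ : Finset ι)).card : ℝ) := by
      have h4 := (card_le_card h2).trans (card_biUnion_le.trans
        (sum_le_sum fun L' _ => card_biUnion_le))
      exact_mod_cast h4
    refine (mul_le_mul_of_nonneg_left h3 (hPr L)).trans (le_of_eq ?_)
    rw [mul_sum]
    refine sum_congr rfl fun L' _ => ?_
    rw [mul_sum]
    refine sum_congr rfl fun T _ => ?_
    split_ifs
    · ring
    · simp
  refine (sum_le_sum h1).trans ?_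
  rw [sum_comm]
  -- step 2: sum over the fibre
  have h2 : ∀ L' ∈ Om α N, ∑ L ∈ Om α N, ∑ T ∈ Ws Hs role (D + 1) N s L',
        ((C T L').card : ℝ) * (if (∀ x, x ∉ T → L' x = L x) then Pr μ L else 0)
      ≤ Pr μ L' * (2 * Fintype.card ι * (∏ y ∈ H0, (1 + bw s (r0 y))) * bd) := by
    intro L' hL'
    rw [sum_comm]
    have h3 : ∀ T ∈ Ws Hs role (D + 1) N s L', ∑ L ∈ Om α N,
        ((C T L').card : ℝ) * (if (∀ x, x ∉ T → L' x = L x) then Pr μ L else 0)
        ≤ (Pr μ L' * (2 * Fintype.card ι * (∏ y ∈ H0, (1 + bw s (r0 y))))) *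
          ∏ x ∈ T, bw s (role (dec Hs role (D + 1) s L') x) := by
      intro T hT
      unfold Ws at hT
      rw [mem_filter, mem_powerset] at hT
      obtain ⟨t1, t2, t3⟩ := hT
      set d := dec Hs role (D + 1) s L' with hd
      have hTne : T.Nonempty := by
        rcases t2 with ⟨_, b⟩ | ⟨b1, b2⟩
        · exact b
        · by_contra hne
          rw [not_nonempty_iff_eq_empty] at hne
          rw [hne] at b2
          unfold Yw at b2
          rw [sum_empty] at b2
          have : (0 : ℝ) < 8 * (3 / 2 : ℝ) ^ s := by positivity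
          linarith
      rw [← mul_sum, ← sum_filter, fiber_sum N μ hμ1 T hL']
      have h4 := cond_count e H0 r0 q hq hanti s T hTne (fun x => role d x)
      -- `q ^ |T| = ∏ μ (L' x) bw ^ 2`
      have h5 : q ^ T.card = (∏ x ∈ T, μ (L' x)) * (∏ x ∈ T, bw s (role d x)) ^ 2 := by
        rw [← prod_pow, ← prod_mul_distrib, ← prod_const]
        refine prod_congr rfl fun x hx => ?_
        obtain ⟨u1, u2⟩ := t3 x hx
        rw [hμq _ u2]
        exact gam_bw u1 0 q
      have hbp : 0 < ∏ x ∈ T, bw s (role d x) := prod_pos fun x _ => bw_pos _ _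
      have hCC : ((C T L').card : ℝ) ≤ 2 * Fintype.card ι * (∏ y ∈ H0, (1 + bw s (r0 y))) *
          ((∏ x ∈ T, μ (L' x)) * ∏ x ∈ T, bw s (role d x)) := by
        have h6 : ((C T L').card : ℝ) * ∏ x ∈ T, bw s (role d x)
            ≤ (2 * Fintype.card ι * (∏ y ∈ H0, (1 + bw s (r0 y))) *
          ((∏ x ∈ T, μ (L' x)) * ∏ x ∈ T, bw s (role d x))) * ∏ x ∈ T, bw s (role d x) := by
          refine h4.trans (le_of_eq ?_)
          rw [h5]
          ring
        exact le_of_mul_le_mul_right h6 hbp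
      have h7 : Pr μ L' = (∏ x ∈ T, μ (L' x)) * ∏ x ∈ Tᶜ, μ (L' x) := by
        unfold Pr; rw [prod_mul_prod_compl]
      have h8 : 0 ≤ ∏ x ∈ Tᶜ, μ (L' x) := prod_nonneg fun x _ => hμ _
      calc ((C T L').card : ℝ) * ∏ x ∈ Tᶜ, μ (L' x)
          ≤ (2 * Fintype.card ι * (∏ y ∈ H0, (1 + bw s (r0 y))) *
          ((∏ x ∈ T, μ (L' x)) * ∏ x ∈ T, bw s (role d x))) * ∏ x ∈ Tᶜ, μ (L' x) :=
            mul_le_mul_of_nonneg_right hCC h8
        _ = _ := by rw [h7]; ring
    refine (sum_le_sum h3).trans ?_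
    rw [← mul_sum]
    have h9 : ∑ T ∈ Ws Hs role (D + 1) N s L', ∏ x ∈ T, bw s (role (dec Hs role (D + 1) s L') x)
        ≤ bd := by
      refine le_trans ?_ (hbd (dec Hs role (D + 1) s L'))
      refine sum_le_sum_of_subset_of_nonneg ?_ fun T _ _ => prod_nonneg fun x _ => bw_nonneg _ _
      intro T hT
      unfold Ws at hT
      rw [mem_filter] at hT ⊢
      exact ⟨hT.1, hT.2.1⟩
    have h10 : 0 ≤ Pr μ L' * (2 * Fintype.card ι * (∏ y ∈ H0, (1 + bw s (r0 y)))) := by
      refine mul_nonneg (hPr L') (mul_nonneg (by positivity) (prod_nonneg fun y _ => ?_))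
      have := bw_nonneg s (r0 y)
      linarith
    refine (mul_le_mul_of_nonneg_left h9 h10).trans (le_of_eq ?_)
    ring
  refine (sum_le_sum h2).trans ?_
  rw [← sum_mul, sum_Pr N μ hμ1, one_mul]

end Multi

end Vale.Agent.P064
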