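import Mathlib
import Vale.Agent.Lib.P034.Transfer

set_option linter.unusedSectionVars false

namespace Vale.Agent.P064

open Finset
open Vale.Agent.P034 (Om Pr mem_Om sum_Pr transfer)

section Spread

variable {α ι : Type*} [DecidableEq α]

/-- the part of `Hs i` with labels at least `s` -/
def sres (Hs : ι → Finset α) (i : ι) (L : α → ℕ) (s : ℕ) : Finset α :=
  (Hs i).filter fun x => s ≤ L x

theorem mem_sres {Hs : ι → Finset α} {i : ι} {L : α → ℕ} {s : ℕ} {x : α} :
    x ∈ sres Hs i L s ↔ x ∈ Hs i ∧ s ≤ L x := by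
  rw [sres, mem_filter]

theorem sres_anti {Hs : ι → Finset α} {i : ι} {L : α → ℕ} {s t : ℕ} (h : s ≤ t) :
    sres Hs i L t ⊆ sres Hs i L s := by
  intro x hx
  rw [mem_sres] at hx ⊢
  exact ⟨hx.1, h.trans hx.2⟩

/-- `T` is output at stage `s` (with size bound `m`) -/
def SOut (Hs : ι → Finset α) (m s : ℕ) (L : α → ℕ) (T : Finset α) : Prop :=
  m < 2 * T.card ∧ (∃ j, sres Hs j L (s + 1) = T ∧ (sres Hs j L s).card ≤ m) ∧
    ∀ j, (sres Hs j L s).card ≤ m → sres Hs j L (s + 1) ⊆ T →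
      T.card ≤ (sres Hs j L (s + 1)).card

/-- one stage -/
theorem sstep [Fintype ι] {Hs : ι → Finset α} {L : α → ℕ} {m s : ℕ} {H : Finset α}
    (h : ∃ j, (sres Hs j L s).card ≤ m ∧ sres Hs j L s ⊆ H)
    (hno : ∀ T, SOut Hs m s L T → ¬ T ⊆ H) :
    ∃ j, 2 * (sres Hs j L (s + 1)).card ≤ m ∧ sres Hs j L (s + 1) ⊆ H := by
  classical
  obtain ⟨j0, h1, h2⟩ := h
  obtain ⟨j, hj, hmin⟩ := ((univ : Finset ι).filter fun j =>
      (sres Hs j L s).card ≤ m ∧ sres Hs j L (s + 1) ⊆ H).exists_min_image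
    (fun j => (sres Hs j L (s + 1)).card)
    ⟨j0, by rw [mem_filter]; exact ⟨mem_univ _, h1, (sres_anti (Nat.le_succ s)).trans h2⟩⟩
  rw [mem_filter] at hj
  refine ⟨j, ?_, hj.2.2⟩
  by_contra hcon
  refine hno (sres Hs j L (s + 1)) ⟨by omega, ⟨j, rfl, hj.2.1⟩, ?_⟩ hj.2.2
  intro j' h3 h4
  exact hmin j' (by rw [mem_filter]; exact ⟨mem_univ _, h3, h4.trans hj.2.2⟩)

/-- all stages -/
theorem schain [Fintype ι] {Hs : ι → Finset α} {L : α → ℕ} {ℓ : ℕ} {i : ι}
    (hi : (Hs i).card ≤ 2 ^ ℓ)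
    (hno : ∀ s ≤ ℓ, ∀ T, SOut Hs (2 ^ (ℓ - s)) s L T → ¬ T ⊆ Hs i) :
    ∃ j, sres Hs j L (ℓ + 1) = ∅ := by
  have key : ∀ s ≤ ℓ, ∃ j, (sres Hs j L s).card ≤ 2 ^ (ℓ - s) ∧ sres Hs j L s ⊆ Hs i := by
    intro s
    induction s with
    | zero =>
      intro _
      refine ⟨i, ?_, filter_subset _ _⟩
      exact (card_le_card (filter_subset _ _)).trans (by simpa using hi)
    | succ s ih =>
      intro hs
      obtain ⟨j, h1, h2⟩ := sstep (ih (by omega)) (hno s (by omega))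
      refine ⟨j, ?_, h2⟩
      have h3 : ℓ - s = (ℓ - (s + 1)) + 1 := by omega
      rw [h3, pow_succ] at h1
      omega
  obtain ⟨j, h1, h2⟩ := sstep (key ℓ le_rfl) (hno ℓ le_rfl)
  refine ⟨j, ?_⟩
  rw [Nat.sub_self, pow_zero] at h1
  rw [← card_eq_zero]
  omega

/-- the modified labels -/
def srelabel (s : ℕ) (T : Finset α) (L : α → ℕ) : α → ℕ := fun x => if x ∈ T then s else L x

/-- decoding -/
theorem sdecode {Hs : ι → Finset α} {L : α → ℕ} {m s : ℕ} {T : Finset α}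
    (hT : SOut Hs m s L T) :
    (∃ j, sres Hs j (srelabel s T L) (s + 1) = ∅ ∧ (sres Hs j (srelabel s T L) s).card ≤ m) ∧
    ∀ j, sres Hs j (srelabel s T L) (s + 1) = ∅ → (sres Hs j (srelabel s T L) s).card ≤ m →
      T ⊆ sres Hs j (srelabel s T L) s := by
  obtain ⟨h1, ⟨j0, h2, h3⟩, h4⟩ := hT
  have hTL : ∀ x ∈ T, s + 1 ≤ L x := by
    intro x hx
    rw [← h2, mem_sres] at hx
    exact hx.2
  have hiff : ∀ x, s ≤ srelabel s T L x ↔ s ≤ L x := by
    intro x
    unfold srelabel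
    by_cases hx : x ∈ T
    · rw [if_pos hx]
      have := hTL x hx
      exact ⟨fun _ => by omega, fun _ => le_rfl⟩
    · rw [if_neg hx]
  have hres : ∀ j, sres Hs j (srelabel s T L) s = sres Hs j L s := by
    intro j
    ext x
    rw [mem_sres, mem_sres, hiff]
  refine ⟨⟨j0, ?_, ?_⟩, ?_⟩
  · rw [eq_empty_iff_forall_notMem]
    intro x hx
    rw [mem_sres] at hx
    unfold srelabel at hx
    by_cases hxT : x ∈ T
    · rw [if_pos hxT] at hx; omega
    · rw [if_neg hxT] at hx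
      exact hxT (by rw [← h2, mem_sres]; exact hx)
  · rw [hres]; exact h3
  · intro j h5 h6
    rw [hres] at h6 ⊢
    have h7 : sres Hs j L (s + 1) ⊆ T := by
      intro x hx
      by_contra hxT
      rw [mem_sres] at hx
      have : x ∈ sres Hs j (srelabel s T L) (s + 1) := by
        rw [mem_sres]
        unfold srelabel
        rw [if_neg hxT]
        exact hx
      rw [h5] at this
      exact absurd this (notMem_empty x)
    have h8 := eq_of_subset_of_card_le h7 (h4 j h6 h7)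
    rw [← h8]
    exact sres_anti (Nat.le_succ s)

/-- the weights of the labels -/
noncomputable def smu (ℓ : ℕ) (p : ℝ) : ℕ → ℝ := fun n =>
  if n ≤ ℓ then p / (ℓ + 1) else 1 - p

theorem smu_nonneg {ℓ : ℕ} {p : ℝ} (hp0 : 0 ≤ p) (hp1 : p ≤ 1) (n : ℕ) : 0 ≤ smu ℓ p n := by
  unfold smu
  split_ifs
  · positivity
  · linarith

theorem smu_sum {ℓ : ℕ} {p : ℝ} : ∑ n ∈ range (ℓ + 1 + 1), smu ℓ p n = 1 := by
  rw [sum_range_succ]
  have h1 : ∑ n ∈ range (ℓ + 1), smu ℓ p n = ∑ n ∈ range (ℓ + 1), p / (ℓ + 1) := by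
    refine sum_congr rfl fun n hn => ?_
    rw [mem_range] at hn
    unfold smu
    rw [if_pos (by omega)]
  rw [h1, sum_const, card_range, nsmul_eq_mul]
  unfold smu
  rw [if_neg (by omega)]
  have : (ℓ : ℝ) + 1 ≠ 0 := by positivity
  push_cast
  field_simp
  ring

/-- the cost of one stage -/
theorem stage_cost [Fintype α] {Hs : ι → Finset α} {ℓ m s : ℕ} (hs : s ≤ ℓ) {p κ : ℝ}
    (hp0 : 0 < p) (hp1 : p ≤ 1) (hκ : 0 < κ)
    (U : (α → ℕ) → Finset (Finset α)) (hU : ∀ L, ∀ T ∈ U L, SOut Hs m s L T)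
    (hρ : κ ≤ (1 / 8) * (p / (ℓ + 1))) :
    ∑ L ∈ Om α (ℓ + 1), Pr (smu ℓ p) L * ∑ T ∈ U L, κ ^ T.card
      ≤ 2 ^ m * (κ / (p / (ℓ + 1))) ^ (m / 2 + 1) := by
  classical
  set p1 : ℝ := p / (ℓ + 1) with hp1def
  have hp1pos : 0 < p1 := by positivity
  set ρ : ℝ := κ / p1 with hρdef
  have hρ0 : 0 < ρ := by positivity
  have hρ1 : ρ ≤ 1 := by
    rw [hρdef, div_le_one hp1pos]
    linarith
  -- decoding choice
  let R : (α → ℕ) → Finset α := fun L =>
    if h : ∃ j, sres Hs j L (s + 1) = ∅ ∧ (sres Hs j L s).card ≤ m then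
      sres Hs h.choose L s else ∅
  have hR : ∀ L, (R L).card ≤ m := by
    intro L
    simp only [R]
    split_ifs with h
    · exact h.choose_spec.2
    · simp
  have htr := transfer (α := α) (ℓ + 1) (smu ℓ p) (smu_nonneg hp0.le hp1) smu_sum κ hκ.le U
    (fun L => (R L).powerset.filter fun T => m < 2 * T.card) (fun _ _ => ρ)
    (fun _ _ => hρ0.le) (by
      intro L hL T hT
      have hT' := hU L T hT
      obtain ⟨hd1, hd2⟩ := sdecode hT'
      refine ⟨srelabel s T L, ?_, ?_, ?_, ?_⟩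
      · rw [mem_Om]
        intro x
        unfold srelabel
        split_ifs
        · omega
        · exact mem_Om.1 hL x
      · intro x hx
        unfold srelabel
        rw [if_neg hx]
      · rw [mem_filter, mem_powerset]
        refine ⟨?_, hT'.1⟩
        simp only [R]
        rw [dif_pos hd1]
        exact hd2 _ hd1.choose_spec.1 hd1.choose_spec.2
      · intro x hx
        have : srelabel s T L x = s := by unfold srelabel; rw [if_pos hx]
        rw [this]
        unfold smu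
        rw [if_pos hs, ← hp1def, hρdef]
        field_simp
        exact le_rfl)
  refine htr.trans ?_
  have hb : ∀ L, ∑ T ∈ (R L).powerset.filter (fun T => m < 2 * T.card), ∏ _x ∈ T, ρ
      ≤ 2 ^ m * ρ ^ (m / 2 + 1) := by
    intro L
    calc ∑ T ∈ (R L).powerset.filter (fun T => m < 2 * T.card), ∏ _x ∈ T, ρ
        ≤ ∑ T ∈ (R L).powerset.filter (fun T => m < 2 * T.card), ρ ^ (m / 2 + 1) := by
          refine sum_le_sum fun T hT => ?_
          rw [mem_filter] at hT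
          rw [prod_const]
          exact pow_le_pow_of_le_one hρ0.le hρ1 (by omega)
      _ ≤ ∑ T ∈ (R L).powerset, ρ ^ (m / 2 + 1) :=
          sum_le_sum_of_subset_of_nonneg (filter_subset _ _) fun _ _ _ => by positivity
      _ = 2 ^ (R L).card * ρ ^ (m / 2 + 1) := by
          rw [sum_const, card_powerset, nsmul_eq_mul]
          push_cast
          ring
      _ ≤ 2 ^ m * ρ ^ (m / 2 + 1) := by
          refine mul_le_mul_of_nonneg_right ?_ (by positivity)
          exact pow_le_pow_right₀ (by norm_num) (hR L)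
  calc ∑ L ∈ Om α (ℓ + 1), Pr (smu ℓ p) L *
        ∑ T ∈ (R L).powerset.filter (fun T => m < 2 * T.card), ∏ _x ∈ T, ρ
      ≤ ∑ L ∈ Om α (ℓ + 1), Pr (smu ℓ p) L * (2 ^ m * ρ ^ (m / 2 + 1)) := by
        refine sum_le_sum fun L _ => ?_
        exact mul_le_mul_of_nonneg_left (hb L)
          (prod_nonneg fun x _ => smu_nonneg hp0.le hp1 _)
    _ = 2 ^ m * ρ ^ (m / 2 + 1) := by
        rw [← sum_mul, sum_Pr (ℓ + 1) (smu ℓ p) smu_sum, one_mul]

theorem half_two_pow (r : ℕ) : r ≤ 2 ^ r / 2 := by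
  induction r with
  | zero => simp
  | succ r ih =>
    rw [pow_succ, Nat.mul_div_cancel _ (by norm_num)]
    have : r < 2 ^ r := Nat.lt_two_pow_self
    omega

theorem stage_num {ρ : ℝ} (h0 : 0 ≤ ρ) (h1 : ρ ≤ 1 / 8) (r : ℕ) :
    2 ^ (2 ^ r) * ρ ^ (2 ^ r / 2 + 1) ≤ 2 * ρ * (1 / 2 : ℝ) ^ r := by
  set k := 2 ^ r / 2 with hk
  have h2 : 2 ^ r ≤ 2 * k + 1 := by omega
  have h3 : (2 : ℝ) ^ (2 ^ r) ≤ 2 ^ (2 * k + 1) := pow_le_pow_right₀ (by norm_num) h2
  have h4 : (2 : ℝ) ^ (2 * k + 1) * ρ ^ (k + 1) = 2 * ρ * (4 * ρ) ^ k := by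
    rw [pow_succ, pow_mul, pow_succ ρ, mul_pow]
    norm_num
    ring
  calc (2 : ℝ) ^ (2 ^ r) * ρ ^ (k + 1) ≤ 2 ^ (2 * k + 1) * ρ ^ (k + 1) :=
        mul_le_mul_of_nonneg_right h3 (by positivity)
    _ = 2 * ρ * (4 * ρ) ^ k := h4
    _ ≤ 2 * ρ * (1 / 2) ^ k := by
        refine mul_le_mul_of_nonneg_left ?_ (by positivity)
        exact pow_le_pow_left₀ (by positivity) (by linarith) k
    _ ≤ 2 * ρ * (1 / 2) ^ r := by
        refine mul_le_mul_of_nonneg_left ?_ (by positivity)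
        exact pow_le_pow_of_le_one (by norm_num) (by norm_num) (by rw [hk]; exact half_two_pow r)

theorem stage_total {ρ : ℝ} (h0 : 0 ≤ ρ) (h1 : ρ ≤ 1 / 8) (ℓ : ℕ) :
    ∑ s ∈ range (ℓ + 1), 2 ^ (2 ^ (ℓ - s)) * ρ ^ (2 ^ (ℓ - s) / 2 + 1) ≤ 4 * ρ := by
  calc ∑ s ∈ range (ℓ + 1), 2 ^ (2 ^ (ℓ - s)) * ρ ^ (2 ^ (ℓ - s) / 2 + 1)
      ≤ ∑ s ∈ range (ℓ + 1), 2 * ρ * (1 / 2 : ℝ) ^ (ℓ - s) :=
        sum_le_sum fun s _ => stage_num h0 h1 (ℓ - s)
    _ = 2 * ρ * ∑ s ∈ range (ℓ + 1), (1 / 2 : ℝ) ^ s := by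
        rw [mul_sum]
        have := sum_range_reflect (fun s => 2 * ρ * (1 / 2 : ℝ) ^ s) (ℓ + 1)
        rw [← this]
        refine sum_congr rfl fun s hs => ?_
        congr 2
    _ ≤ 2 * ρ * 2 := by
        refine mul_le_mul_of_nonneg_left ?_ (by positivity)
        have h2 := geom_sum_eq (by norm_num : (1 / 2 : ℝ) ≠ 1) (ℓ + 1)
        rw [h2]
        have : (0 : ℝ) < (1 / 2) ^ (ℓ + 1) := by positivity
        rw [div_le_iff_of_neg (by norm_num)]
        linarith
    _ = 4 * ρ := by ring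

/-- the set of elements with label at most `ℓ` -/
def Wl [Fintype α] (ℓ : ℕ) (L : α → ℕ) : Finset α := univ.filter fun x => L x ≤ ℓ

theorem push_forward [Fintype α] {ℓ : ℕ} {p : ℝ} (g : Finset α → ℝ) :
    ∑ L ∈ Om α (ℓ + 1), Pr (smu ℓ p) L * g (Wl ℓ L)
      = ∑ W : Finset α, p ^ W.card * (1 - p) ^ (Fintype.card α - W.card) * g W := by
  classical
  rw [← sum_fiberwise (s := Om α (ℓ + 1)) (g := fun L => Wl ℓ L)]
  refine sum_congr rfl fun W _ => ?_
  have h0 : ∑ L ∈ (Om α (ℓ + 1)).filter (fun L => Wl ℓ L = W), Pr (smu ℓ p) L * g (Wl ℓ L)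
      = (∑ L ∈ (Om α (ℓ + 1)).filter (fun L => Wl ℓ L = W), Pr (smu ℓ p) L) * g W := by
    rw [sum_mul]
    refine sum_congr rfl fun L hL => ?_
    rw [mem_filter] at hL
    rw [hL.2]
  rw [h0]
  congr 1
  have h1 : (Om α (ℓ + 1)).filter (fun L => Wl ℓ L = W)
      = Fintype.piFinset fun x => if x ∈ W then range (ℓ + 1) else {ℓ + 1} := by
    ext L
    rw [mem_filter, mem_Om, Fintype.mem_piFinset]
    constructor
    · rintro ⟨h2, h3⟩ x
      have h4 : x ∈ W ↔ L x ≤ ℓ := by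
        rw [← h3, Wl, mem_filter]; simp
      by_cases hx : x ∈ W
      · rw [if_pos hx, mem_range]
        have := h4.1 hx
        omega
      · rw [if_neg hx, mem_singleton]
        have h5 : ¬ L x ≤ ℓ := fun h => hx (h4.2 h)
        have := h2 x
        omega
    · intro h2
      refine ⟨fun x => ?_, ?_⟩
      · have := h2 x
        by_cases hx : x ∈ W
        · rw [if_pos hx, mem_range] at this; omega
        · rw [if_neg hx, mem_singleton] at this; omega
      · ext x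
        rw [Wl, mem_filter]
        have := h2 x
        by_cases hx : x ∈ W
        · rw [if_pos hx, mem_range] at this
          simp only [mem_univ, true_and]
          exact ⟨fun _ => hx, fun _ => by omega⟩
        · rw [if_neg hx, mem_singleton] at this
          simp only [mem_univ, true_and]
          exact ⟨fun h => by omega, fun h => absurd h hx⟩
  rw [h1]
  unfold Pr
  rw [← prod_univ_sum]
  have h2 : ∀ x, ∑ n ∈ (if x ∈ W then range (ℓ + 1) else {ℓ + 1}), smu ℓ p n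
      = if x ∈ W then p else 1 - p := by
    intro x
    split_ifs
    · have h3 : ∑ n ∈ range (ℓ + 1), smu ℓ p n = ∑ n ∈ range (ℓ + 1), p / (ℓ + 1) := by
        refine sum_congr rfl fun n hn => ?_
        rw [mem_range] at hn
        unfold smu
        rw [if_pos (by omega)]
      rw [h3, sum_const, card_range, nsmul_eq_mul]
      have : (ℓ : ℝ) + 1 ≠ 0 := by positivity
      push_cast
      field_simp
    · rw [sum_singleton]
      unfold smu
      rw [if_neg (by omega)]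
  rw [prod_congr rfl fun x _ => h2 x, ← prod_mul_prod_compl W]
  rw [prod_congr rfl (g := fun _ => p) (fun x hx => if_pos hx), prod_const,
    prod_congr rfl (g := fun _ => 1 - p) (fun x hx => if_neg (mem_compl.1 hx)), prod_const,
    card_compl]

theorem spread_threshold {α ι : Type*} [Fintype α] [DecidableEq α] [Fintype ι] [Nonempty ι]
    (Hs : ι → Finset α) (ℓ : ℕ) (hℓ : ∀ i, (Hs i).card ≤ 2 ^ ℓ) (κ : ℝ) (hκ : 0 < κ)
    (hspread : ∀ S : Finset α, S.Nonempty →
      (((univ : Finset ι).filter fun i => S ⊆ Hs i).card : ℝ) ≤ κ ^ S.card * Fintype.card ι)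
    (p : ℝ) (hp1 : p ≤ 1) (hp : 1024 * κ * (ℓ + 1) ≤ p) :
    1 / 2 ≤ ∑ W ∈ (univ : Finset (Finset α)).filter (fun W => ∃ i, Hs i ⊆ W),
      p ^ W.card * (1 - p) ^ (Fintype.card α - W.card) := by
  classical
  have hp0 : 0 < p := lt_of_lt_of_le (by positivity) hp
  set p1 : ℝ := p / (ℓ + 1) with hp1def
  have hp1pos : 0 < p1 := by positivity
  have hκp : 1024 * κ ≤ p1 := by
    rw [hp1def, le_div_iff₀ (by positivity)]
    exact hp
  set ρ : ℝ := κ / p1 with hρdef
  have hρ0 : 0 < ρ := by positivity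
  have hρ1 : ρ ≤ 1 / 1024 := by
    rw [hρdef, div_le_iff₀ hp1pos]
    linarith
  have hcard : (0 : ℝ) < Fintype.card ι := by
    exact_mod_cast Fintype.card_pos
  have hPr : ∀ L : α → ℕ, 0 ≤ Pr (smu ℓ p) L :=
    fun L => prod_nonneg fun x _ => smu_nonneg hp0.le hp1 _
  -- the outputs
  let U : ℕ → (α → ℕ) → Finset (Finset α) := fun s L =>
    (univ : Finset (Finset α)).filter fun T => SOut Hs (2 ^ (ℓ - s)) s L T
  have hUmem : ∀ s L T, T ∈ U s L ↔ SOut Hs (2 ^ (ℓ - s)) s L T := by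
    intro s L T
    simp only [U, mem_filter, mem_univ, true_and]
  have hcost : ∀ s ∈ range (ℓ + 1),
      ∑ L ∈ Om α (ℓ + 1), Pr (smu ℓ p) L * ∑ T ∈ U s L, κ ^ T.card
        ≤ 2 ^ (2 ^ (ℓ - s)) * ρ ^ (2 ^ (ℓ - s) / 2 + 1) := by
    intro s hs
    rw [mem_range] at hs
    exact stage_cost (Hs := Hs) (m := 2 ^ (ℓ - s)) (by omega : s ≤ ℓ) hp0 hp1 hκ (U s)
      (fun L T hT => (hUmem s L T).1 hT) (by rw [← hp1def]; linarith)
  -- the pointwise bound
  set good : Finset α → Prop := fun W => ∃ i, Hs i ⊆ W with hgood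
  have hpt : ∀ L ∈ Om α (ℓ + 1), (if good (Wl ℓ L) then (0 : ℝ) else 1)
      ≤ ∑ s ∈ range (ℓ + 1), ∑ T ∈ U s L, κ ^ T.card := by
    intro L hL
    have hnn : 0 ≤ ∑ s ∈ range (ℓ + 1), ∑ T ∈ U s L, κ ^ T.card :=
      sum_nonneg fun _ _ => sum_nonneg fun _ _ => by positivity
    split_ifs with hg
    · exact hnn
    · -- every `i` contains an output
      have hcov : ∀ i : ι, ∃ s ∈ range (ℓ + 1), ∃ T ∈ U s L, T ⊆ Hs i := by
        intro i
        by_contra hcon
        push Not at hcon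
        obtain ⟨j, hj⟩ := schain (Hs := Hs) (L := L) (hℓ i) (by
          intro s hs T hT hTi
          exact hcon s (by rw [mem_range]; omega) T ((hUmem s L T).2 hT) hTi)
        refine hg ⟨j, ?_⟩
        intro x hx
        rw [Wl, mem_filter]
        refine ⟨mem_univ _, ?_⟩
        by_contra hlt
        have : x ∈ sres Hs j L (ℓ + 1) := by
          rw [mem_sres]; exact ⟨hx, by omega⟩
        rw [hj] at this
        exact absurd this (notMem_empty x)
      have h1 : (Fintype.card ι : ℝ) ≤ ∑ s ∈ range (ℓ + 1), ∑ T ∈ U s L,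
          (((univ : Finset ι).filter fun i => T ⊆ Hs i).card : ℝ) := by
        have h2 : (univ : Finset ι) ⊆ (range (ℓ + 1)).biUnion fun s =>
            (U s L).biUnion fun T => (univ : Finset ι).filter fun i => T ⊆ Hs i := by
          intro i _
          obtain ⟨s, hs, T, hT, hTi⟩ := hcov i
          rw [mem_biUnion]
          refine ⟨s, hs, ?_⟩
          rw [mem_biUnion]
          exact ⟨T, hT, by rw [mem_filter]; exact ⟨mem_univ _, hTi⟩⟩
        have h3 := card_le_card h2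
        rw [card_univ] at h3
        have h4 : ((range (ℓ + 1)).biUnion fun s =>
            (U s L).biUnion fun T => (univ : Finset ι).filter fun i => T ⊆ Hs i).card
            ≤ ∑ s ∈ range (ℓ + 1), ∑ T ∈ U s L,
              ((univ : Finset ι).filter fun i => T ⊆ Hs i).card :=
          card_biUnion_le.trans (sum_le_sum fun s _ => card_biUnion_le)
        exact_mod_cast h3.trans h4
      have h5 : ∑ s ∈ range (ℓ + 1), ∑ T ∈ U s L,
          (((univ : Finset ι).filter fun i => T ⊆ Hs i).card : ℝ)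
          ≤ (∑ s ∈ range (ℓ + 1), ∑ T ∈ U s L, κ ^ T.card) * Fintype.card ι := by
        rw [sum_mul]
        refine sum_le_sum fun s _ => ?_
        rw [sum_mul]
        refine sum_le_sum fun T hT => ?_
        refine hspread T ?_
        rw [← card_pos]
        have h7 := ((hUmem s L T).1 hT).1
        have h8 : 0 < 2 * T.card := lt_of_le_of_lt (Nat.zero_le _) h7
        omega
      have h6 := h1.trans h5
      by_contra hlt
      rw [not_le] at hlt
      nlinarith
  -- integrate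
  have hbad : ∑ L ∈ Om α (ℓ + 1), Pr (smu ℓ p) L * (if good (Wl ℓ L) then (0 : ℝ) else 1)
      ≤ 1 / 2 := by
    calc ∑ L ∈ Om α (ℓ + 1), Pr (smu ℓ p) L * (if good (Wl ℓ L) then (0 : ℝ) else 1)
        ≤ ∑ L ∈ Om α (ℓ + 1), Pr (smu ℓ p) L *
            ∑ s ∈ range (ℓ + 1), ∑ T ∈ U s L, κ ^ T.card :=
          sum_le_sum fun L hL => mul_le_mul_of_nonneg_left (hpt L hL) (hPr L)
      _ = ∑ s ∈ range (ℓ + 1), ∑ L ∈ Om α (ℓ + 1),
            Pr (smu ℓ p) L * ∑ T ∈ U s L, κ ^ T.card := by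
          rw [sum_comm]
          refine sum_congr rfl fun L _ => ?_
          rw [mul_sum]
      _ ≤ ∑ s ∈ range (ℓ + 1), 2 ^ (2 ^ (ℓ - s)) * ρ ^ (2 ^ (ℓ - s) / 2 + 1) :=
          sum_le_sum hcost
      _ ≤ 4 * ρ := stage_total hρ0.le (by linarith) ℓ
      _ ≤ 1 / 2 := by linarith
  have hpush := push_forward (α := α) (ℓ := ℓ) (p := p)
    (fun W => if good W then (1 : ℝ) else 0)
  have htot : ∑ L ∈ Om α (ℓ + 1), Pr (smu ℓ p) L * (if good (Wl ℓ L) then (1 : ℝ) else 0)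
      + ∑ L ∈ Om α (ℓ + 1), Pr (smu ℓ p) L * (if good (Wl ℓ L) then (0 : ℝ) else 1) = 1 := by
    rw [← sum_add_distrib]
    refine Eq.trans (sum_congr rfl fun L _ => ?_)
      (sum_Pr (α := α) (ℓ + 1) (smu ℓ p) smu_sum)
    split_ifs <;> simp
  have hfin : ∑ W ∈ (univ : Finset (Finset α)).filter (fun W => ∃ i, Hs i ⊆ W),
      p ^ W.card * (1 - p) ^ (Fintype.card α - W.card)
      = ∑ W : Finset α, p ^ W.card * (1 - p) ^ (Fintype.card α - W.card) *
        (if good W then (1 : ℝ) else 0) := by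
    rw [sum_filter]
    refine sum_congr rfl fun W _ => ?_
    simp only [hgood]
    split_ifs <;> simp
  rw [hfin, ← hpush]
  linarith

end Spread

end Vale.Agent.P064
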