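import Vale.Agent.Lib.P064.GraphDefs

/-!
# P064: the modified expectation threshold
-/

namespace Vale.Agent.P064

/-- the `p` in `[0,1]` for which `E N(G(n,p),F) ≥ N(H,F)/2` for every subgraph `F` of `H` -/
def ptSet (n : ℕ) {V : Type} [Fintype V] (H : SimpleGraph V) : Set ℝ :=
  {p | 0 ≤ p ∧ p ≤ 1 ∧ ∀ F : H.Subgraph, (H.copyCount F.coe : ℝ) / 2 ≤ expCopy n p F.coe}

/-- the modified expectation threshold -/
noncomputable def pt (n : ℕ) {V : Type} [Fintype V] (H : SimpleGraph V) : ℝ := sInf (ptSet n H)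

end Vale.Agent.P064
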