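import Vale.Agent.Lib.P064.Assemble
import Vale.Agent.Lib.P064.TildeDefs

/-!
# P064: the fractional expectation threshold of graph containment
-/

set_option linter.unusedSectionVars false

namespace Vale.Agent.P064

open Finset SimpleGraph

variable {n : ℕ}

open Classical in
/-- the subgraphs of the complete graph isomorphic to `F` -/
noncomputable def copiesTop (n : ℕ) {U : Type} (F : SimpleGraph U) :
    Finset (⊤ : SimpleGraph (Fin n)).Subgraph :=
  univ.filter fun F' => Nonempty (F ≃g F'.coe)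

/-- the edges of a subgraph of the complete graph -/
noncomputable def sE (F' : (⊤ : SimpleGraph (Fin n)).Subgraph) : Finset (Edge (Fin n)) :=
  edgeF F'.spanningCoe

theorem mem_sE {F' : (⊤ : SimpleGraph (Fin n)).Subgraph} {e : Edge (Fin n)} :
    e ∈ sE F' ↔ e.1 ∈ F'.edgeSet := by
  unfold sE
  rw [mem_edgeF, Subgraph.edgeSet_spanningCoe]

/-- the part of a subgraph that lies in `G` -/
def restr (G : SimpleGraph (Fin n)) (F' : (⊤ : SimpleGraph (Fin n)).Subgraph) : G.Subgraph where
  verts := F'.verts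
  Adj a b := F'.Adj a b ∧ G.Adj a b
  adj_sub h := h.2
  edge_vert h := F'.edge_vert h.1
  symm := ⟨fun _ _ h => ⟨h.1.symm, h.2.symm⟩⟩

theorem adj_of_sE {G : SimpleGraph (Fin n)} {F' : (⊤ : SimpleGraph (Fin n)).Subgraph}
    (h : sE F' ⊆ edgeF G) {a b : Fin n} (hab : F'.Adj a b) : G.Adj a b := by
  have h1 : (⟨s(a, b), by simpa using hab.ne⟩ : Edge (Fin n)) ∈ sE F' :=
    mem_sE.2 (Subgraph.mem_edgeSet.2 hab)
  have h2 := mem_edgeF.1 (h h1)
  exact G.mem_edgeSet.1 h2

/-- the restriction is isomorphic to the subgraph if all edges lie in `G` -/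
def restrIso {G : SimpleGraph (Fin n)} {F' : (⊤ : SimpleGraph (Fin n)).Subgraph}
    (h : sE F' ⊆ edgeF G) : F'.coe ≃g (restr G F').coe where
  toFun x := ⟨x.1, x.2⟩
  invFun x := ⟨x.1, x.2⟩
  left_inv _ := rfl
  right_inv _ := rfl
  map_rel_iff' := ⟨fun h' => h'.1, fun h' => ⟨h', adj_of_sE h h'⟩⟩

theorem card_filter_le_copyCount {U : Type} (F : SimpleGraph U) (G : SimpleGraph (Fin n)) :
    ((copiesTop n F).filter fun F' => sE F' ⊆ edgeF G).card ≤ G.copyCount F := by
  classical
  unfold copyCount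
  refine Finset.card_le_card_of_injOn (restr G) ?_ ?_
  · intro F' hF'
    rw [Finset.mem_coe, mem_filter] at hF'
    obtain ⟨h1, h2⟩ := hF'
    unfold copiesTop at h1
    rw [mem_filter] at h1
    obtain ⟨_, ⟨i⟩⟩ := h1
    have h3 : Nonempty (F ≃g (restr G F').coe) := ⟨i.trans (restrIso h2)⟩
    simpa using h3
  · intro F1 hF1 F2 hF2 h
    rw [Finset.mem_coe, mem_filter] at hF1 hF2
    have hv := congrArg Subgraph.verts h
    have ha := congrArg Subgraph.Adj h
    refine Subgraph.ext hv ?_
    ext a b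
    have hab := congrFun (congrFun ha a) b
    simp only [restr, eq_iff_iff] at hab
    constructor
    · intro h'; exact (hab.1 ⟨h', adj_of_sE hF1.2 h'⟩).1
    · intro h'; exact (hab.2 ⟨h', adj_of_sE hF2.2 h'⟩).1

/-- lower bound for the expected number of copies -/
theorem sum_le_expCopy {p : ℝ} (h0 : 0 ≤ p) (h1 : p ≤ 1) {U : Type} (F : SimpleGraph U) :
    ∑ F' ∈ copiesTop n F, p ^ (sE F').card ≤ expCopy n p F := by
  classical
  have e1 : ∀ F' ∈ copiesTop n F, p ^ (sE F').card
      = ∑ G : SimpleGraph (Fin n), (if sE F' ⊆ edgeF G then gw n p G else 0) :=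
    fun F' _ => (sum_gw_superset_B p (sE F')).symm
  rw [sum_congr rfl e1, sum_comm]
  unfold expCopy
  refine sum_le_sum fun G _ => ?_
  rw [← sum_filter, sum_const, nsmul_eq_mul, mul_comm]
  refine mul_le_mul_of_nonneg_left ?_ (gw_nonneg_B h0 h1 G)
  exact_mod_cast card_filter_le_copyCount F G

variable {V : Type} [Fintype V]

/-- the copy of `H` in the complete graph given by an injection -/
def toCopy (H : SimpleGraph V) (φ : V ↪ Fin n) : Copy H (⊤ : SimpleGraph (Fin n)) :=
  ⟨⟨φ, fun h => φ.injective.ne h.ne⟩, φ.injective⟩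

theorem toCopy_apply (H : SimpleGraph V) (φ : V ↪ Fin n) (v : V) :
    (toCopy H φ).toHom v = φ v := rfl

theorem copyCount_le_card (H : SimpleGraph V) (φ : V ↪ Fin n) {U : Type} (F : SimpleGraph U)
    [DecidableEq V] :
    H.copyCount F ≤ ((copiesTop n F).filter fun F' => sE F' ⊆ (edgeF H).map (emap φ)).card := by
  classical
  unfold copyCount
  refine Finset.card_le_card_of_injOn (fun G' => G'.map (toCopy H φ).toHom) ?_ ?_
  · intro G' hG'
    rw [Finset.mem_coe, mem_filter] at hG'
    obtain ⟨_, ⟨i⟩⟩ := hG'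
    rw [Finset.mem_coe, mem_filter]
    refine ⟨?_, ?_⟩
    · unfold copiesTop
      rw [mem_filter]
      exact ⟨mem_univ _, ⟨i.trans ((toCopy H φ).isoSubgraphMap G')⟩⟩
    · intro e he
      rw [mem_sE] at he
      rw [mem_map]
      obtain ⟨e, he'⟩ := e
      induction e using Sym2.ind with
      | _ x y =>
        rw [Subgraph.mem_edgeSet, Subgraph.map_adj, Relation.map_apply] at he
        obtain ⟨a, b, hab, rfl, rfl⟩ := he
        have hadj : H.Adj a b := hab.adj_sub
        refine ⟨⟨s(a, b), by simpa using hadj.ne⟩, ?_, ?_⟩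
        · rw [mem_edgeF]; exact H.mem_edgeSet.2 hadj
        · exact Subtype.ext rfl
  · intro G1 _ G2 _ h
    have hv := congrArg Subgraph.verts h
    have ha := congrArg Subgraph.Adj h
    simp only [Subgraph.map_verts] at hv
    refine Subgraph.ext ((toCopy H φ).injective.image_injective hv) ?_
    ext a b
    have key : ∀ G1 G2 : H.Subgraph, (G1.map (toCopy H φ).toHom).Adj
        = (G2.map (toCopy H φ).toHom).Adj → G1.Adj a b → G2.Adj a b := by
      intro G1 G2 ha h1
      have h2 : (G1.map (toCopy H φ).toHom).Adj ((toCopy H φ).toHom a) ((toCopy H φ).toHom b) := by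
        rw [Subgraph.map_adj, Relation.map_apply]
        exact ⟨a, b, h1, rfl, rfl⟩
      rw [ha, Subgraph.map_adj, Relation.map_apply] at h2
      obtain ⟨a', b', h3, h4, h5⟩ := h2
      have h6 : a' = a := (toCopy H φ).injective h4
      have h7 : b' = b := (toCopy H φ).injective h5
      rw [← h6, ← h7]; exact h3
    exact ⟨key G1 G2 ha, key G2 G1 ha.symm⟩

/-- the main comparison with the fractional expectation threshold -/
theorem copyCount_le_expCopy [DecidableEq V] (H : SimpleGraph V)
    (hV : Fintype.card V ≤ n) (hH : H.edgeSet.Nonempty) {U : Type} (F : SimpleGraph U) :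
    (H.copyCount F : ℝ) ≤ expCopy n (min (4 * bigC * pE n H) 1) F := by
  classical
  have hne : Nonempty (V ↪ Fin n) := Function.Embedding.nonempty_of_card_le (by simpa using hV)
  have hq := pE_pos H hV hH
  have hb := bigC_pos
  set κ : ℝ := 4 * bigC * pE n H with hκ
  have hκ0 : 0 < κ := by positivity
  set p : ℝ := min κ 1 with hp
  have hp0 : 0 < p := lt_min hκ0 one_pos
  have hp1 : p ≤ 1 := min_le_right _ _
  refine le_trans ?_ (sum_le_expCopy hp0.le hp1 F)
  have hι : (0 : ℝ) < Fintype.card (V ↪ Fin n) := by exact_mod_cast Fintype.card_pos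
  have h1 : (H.copyCount F : ℝ) * Fintype.card (V ↪ Fin n)
      ≤ ∑ φ : V ↪ Fin n, (((copiesTop n F).filter fun F' =>
        sE F' ⊆ (edgeF H).map (emap φ)).card : ℝ) := by
    rw [mul_comm, ← card_univ, ← nsmul_eq_mul, ← sum_const]
    refine sum_le_sum fun φ _ => ?_
    exact_mod_cast copyCount_le_card H φ F
  have h2 : ∑ φ : V ↪ Fin n, (((copiesTop n F).filter fun F' =>
        sE F' ⊆ (edgeF H).map (emap φ)).card : ℝ)
      = ∑ F' ∈ copiesTop n F, (((univ : Finset (V ↪ Fin n)).filter fun φ =>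
        sE F' ⊆ (edgeF H).map (emap φ)).card : ℝ) := by
    simp only [card_filter, Nat.cast_sum]
    rw [sum_comm]
  have h3 : ∀ F' ∈ copiesTop n F, (((univ : Finset (V ↪ Fin n)).filter fun φ =>
        sE F' ⊆ (edgeF H).map (emap φ)).card : ℝ)
      ≤ p ^ (sE F').card * Fintype.card (V ↪ Fin n) := by
    intro F' _
    have h4 : (((univ : Finset (V ↪ Fin n)).filter fun φ =>
        sE F' ⊆ (edgeF H).map (emap φ)).card : ℝ) ≤ Fintype.card (V ↪ Fin n) := by
      exact_mod_cast card_le_univ _
    rcases (sE F').eq_empty_or_nonempty with h | h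
    · rw [h] at h4 ⊢
      rw [card_empty, pow_zero, one_mul]; exact h4
    · rcases le_total κ 1 with hk | hk
      · have h5 := copies_spread H hV hH (sE F') h
        rw [hp, min_eq_left hk]
        exact h5
      · rw [hp, min_eq_right hk, one_pow, one_mul]; exact h4
  rw [h2] at h1
  have h4 := h1.trans (sum_le_sum h3)
  rw [← sum_mul] at h4
  exact le_of_mul_le_mul_right h4 hι

theorem isClosed_ptSet (n : ℕ) {V : Type} [Fintype V] (H : SimpleGraph V) :
    IsClosed (ptSet n H) := by
  have h : ptSet n H = Set.Icc 0 1 ∩ ⋂ F : H.Subgraph,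
      {p | (H.copyCount F.coe : ℝ) / 2 ≤ expCopy n p F.coe} := by
    ext p
    simp only [ptSet, Set.mem_ofPred_eq, Set.mem_inter_iff, Set.mem_Icc, Set.mem_iInter, and_assoc]
  rw [h]
  exact isClosed_Icc.inter (isClosed_iInter fun F =>
    isClosed_le continuous_const (continuous_expCopy n F.coe))

theorem mem_ptSet [DecidableEq V] (H : SimpleGraph V)
    (hV : Fintype.card V ≤ n) (hH : H.edgeSet.Nonempty) :
    min (4 * bigC * pE n H) 1 ∈ ptSet n H := by
  have hq := pE_pos H hV hH
  have hb := bigC_pos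
  refine ⟨(lt_min (by positivity) one_pos).le, min_le_right _ _, fun F => ?_⟩
  have h1 := copyCount_le_expCopy H hV hH F.coe
  have h2 : (0 : ℝ) ≤ H.copyCount F.coe := Nat.cast_nonneg _
  linarith

theorem isLeast_pt (H : SimpleGraph V)
    (hV : Fintype.card V ≤ n) (hH : H.edgeSet.Nonempty) : IsLeast (ptSet n H) (pt n H) := by
  classical
  exact (isClosed_ptSet n H).isLeast_csInf ⟨_, mem_ptSet H hV hH⟩ ⟨0, fun p hp => hp.1⟩

/-- **The modified expectation threshold is at most a constant times the expectation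
threshold.** -/
theorem pt_le (H : SimpleGraph V) (hV : Fintype.card V ≤ n) (hH : H.edgeSet.Nonempty) :
    pt n H ≤ 4 * bigC * pE n H := by
  classical
  exact ((isLeast_pt H hV hH).2 (mem_ptSet H hV hH)).trans (min_le_left _ _)

end Vale.Agent.P064
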